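import Mathlib

/-!
# Moment-curve intersection parity (`Alt`, `Btw`)

`Alt x0 x1 y0 y1 y2` is the mod 2 intersection number of the segment `x0 x1` and the triangle
`y0 y1 y2` on the moment curve of `ℝ³`: all five labels are distinct and the sorted word alternates
`y x y x y`.  `Btw x y0 y1` is the analogue on the line: `x` lies strictly between `y0` and `y1`.
All identities are statements about order types of at most six labels and are checked on `Fin 6`.
-/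

set_option autoImplicit false

namespace BorsukT2

abbrev Z2 := ZMod 2

section Defs
variable {C : Type*} [LinearOrder C]

/-- number of `y`'s below `x` -/
def nb (x y0 y1 y2 : C) : ℕ :=
  (if y0 < x then 1 else 0) + (if y1 < x then 1 else 0) + (if y2 < x then 1 else 0)

/-- `a` and `b` are distinct, written with `<` only. -/
def dist' (a b : C) : Prop := a < b ∨ b < a

instance (a b : C) : Decidable (dist' a b) := by unfold dist'; infer_instance

theorem dist'_iff {a b : C} : dist' a b ↔ a ≠ b := by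
  unfold dist'
  constructor
  · rintro (h | h)
    · exact ne_of_lt h
    · exact (ne_of_lt h).symm
  · intro h
    exact lt_or_gt_of_ne h

/-- Proposition behind `Alt`. -/
def AltP (x0 x1 y0 y1 y2 : C) : Prop :=
  dist' x0 x1 ∧ dist' x0 y0 ∧ dist' x0 y1 ∧ dist' x0 y2 ∧ dist' x1 y0 ∧ dist' x1 y1 ∧ dist' x1 y2 ∧
    dist' y0 y1 ∧ dist' y0 y2 ∧ dist' y1 y2 ∧
    ((nb x0 y0 y1 y2 = 1 ∧ nb x1 y0 y1 y2 = 2) ∨ (nb x0 y0 y1 y2 = 2 ∧ nb x1 y0 y1 y2 = 1))

instance (x0 x1 y0 y1 y2 : C) : Decidable (AltP x0 x1 y0 y1 y2) := by unfold AltP; infer_instance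

/-- Moment-curve segment/triangle parity. -/
def Alt (x0 x1 y0 y1 y2 : C) : Z2 := if AltP x0 x1 y0 y1 y2 then 1 else 0

/-- Proposition behind `Btw`. -/
def BtwP (x y0 y1 : C) : Prop := (y0 < x ∧ x < y1) ∨ (y1 < x ∧ x < y0)

instance (x y0 y1 : C) : Decidable (BtwP x y0 y1) := by unfold BtwP; infer_instance

/-- Moment-curve point/segment parity on the line. -/
def Btw (x y0 y1 : C) : Z2 := if BtwP x y0 y1 then 1 else 0

end Defs

section Transport
variable {C D : Type*} [LinearOrder C] [LinearOrder D]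

/-- `f` preserves and reflects `<` between the labels `a b`. -/
def Refl (f : C → D) (a b : C) : Prop := a < b ↔ f a < f b

theorem nb_map {f : C → D} {x y0 y1 y2 : C} (h0 : Refl f y0 x) (h1 : Refl f y1 x) (h2 : Refl f y2 x) :
    nb (f x) (f y0) (f y1) (f y2) = nb x y0 y1 y2 := by
  unfold nb
  rw [if_congr h0.symm rfl rfl, if_congr h1.symm rfl rfl, if_congr h2.symm rfl rfl]

theorem dist'_map {f : C → D} {a b : C} (h : Refl f a b) (h' : Refl f b a) :
    dist' (f a) (f b) ↔ dist' a b := by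
  unfold dist'
  rw [show a < b ↔ f a < f b from h, show b < a ↔ f b < f a from h']

end Transport

/-- A reflecting map from a list of at most six labels to `Fin 6`. -/
theorem exists_rank {C : Type*} [LinearOrder C] (l : Finset C) (hl : l.card ≤ 6) :
    ∃ f : C → Fin 6, ∀ a ∈ l, ∀ b ∈ l, (a < b ↔ f a < f b) := by
  classical
  let r : C → ℕ := fun c => (l.filter (· < c)).card
  have hr : ∀ c ∈ l, r c < 6 := by
    intro c hc
    have : (l.filter (· < c)) ⊂ l := by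
      refine Finset.filter_ssubset.2 ⟨c, hc, lt_irrefl c⟩
    exact lt_of_lt_of_le (Finset.card_lt_card this) hl
  have hmono : ∀ a ∈ l, ∀ b, a < b → r a < r b := by
    intro a ha b hab
    apply Finset.card_lt_card
    refine ⟨fun x hx => ?_, fun hsub => ?_⟩
    · simp only [Finset.mem_filter] at hx ⊢
      exact ⟨hx.1, hx.2.trans hab⟩
    · have : a ∈ l.filter (· < a) := hsub (by simp [ha, hab])
      simp at this
  have hmono' : ∀ a b, a ≤ b → r a ≤ r b := by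
    intro a b hab
    apply Finset.card_le_card
    intro x hx
    simp only [Finset.mem_filter] at hx ⊢
    exact ⟨hx.1, lt_of_lt_of_le hx.2 hab⟩
  refine ⟨fun c => if h : r c < 6 then ⟨r c, h⟩ else 0, ?_⟩
  intro a ha b hb
  have h1 := hr a ha
  have h2 := hr b hb
  simp only [h1, h2, dite_true, Fin.mk_lt_mk]
  constructor
  · exact hmono a ha b
  · intro h
    by_contra hn
    have := hmono' b a (not_lt.1 hn)
    omega

set_option maxRecDepth 100000 in
private theorem alt33_fin : ∀ a a' z y0 y1 y2 : Fin 6,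
    dist' a y0 → dist' a y1 → dist' a y2 → dist' a' y0 → dist' a' y1 → dist' a' y2 →
    dist' z y0 → dist' z y1 → dist' z y2 →
    Alt a z y0 y1 y2 + Alt a' z y0 y1 y2 + Alt a a' y0 y1 y2 +
      Alt y1 y2 a a' z + Alt y0 y2 a a' z + Alt y0 y1 a a' z = 0 := by
  decide +kernel

set_option maxRecDepth 100000 in
private theorem alt24_fin : ∀ x0 x1 y0 y1 y2 y3 : Fin 6,
    dist' x0 y0 → dist' x0 y1 → dist' x0 y2 → dist' x0 y3 →
    dist' x1 y0 → dist' x1 y1 → dist' x1 y2 → dist' x1 y3 →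
    Alt x0 x1 y1 y2 y3 + Alt x0 x1 y0 y2 y3 + Alt x0 x1 y0 y1 y3 + Alt x0 x1 y0 y1 y2 = 0 := by
  decide +kernel

set_option maxRecDepth 100000 in
private theorem btw11_fin : ∀ x0 x1 y0 y1 : Fin 6,
    dist' x0 y0 → dist' x0 y1 → dist' x1 y0 → dist' x1 y1 →
    Btw x0 y0 y1 + Btw x1 y0 y1 + Btw y0 x0 x1 + Btw y1 x0 x1 = 0 := by
  decide +kernel

set_option maxRecDepth 100000 in
private theorem btw02_fin : ∀ x y0 y1 y2 : Fin 6,
    dist' x y0 → dist' x y1 → dist' x y2 →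
    Btw x y1 y2 + Btw x y0 y2 + Btw x y0 y1 = 0 := by
  decide +kernel

section Transfer
variable {C : Type*} [LinearOrder C]

theorem alt_map {D : Type*} [LinearOrder D] {f : C → D} {l : Finset C}
    (hf : ∀ a ∈ l, ∀ b ∈ l, (a < b ↔ f a < f b)) {x0 x1 y0 y1 y2 : C}
    (h0 : x0 ∈ l) (h1 : x1 ∈ l) (h2 : y0 ∈ l) (h3 : y1 ∈ l) (h4 : y2 ∈ l) :
    Alt (f x0) (f x1) (f y0) (f y1) (f y2) = Alt x0 x1 y0 y1 y2 := by
  have R : ∀ {a b}, a ∈ l → b ∈ l → Refl f a b := fun ha hb => hf _ ha _ hb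
  unfold Alt
  refine if_congr ?_ rfl rfl
  unfold AltP
  rw [dist'_map (R h0 h1) (R h1 h0), dist'_map (R h0 h2) (R h2 h0), dist'_map (R h0 h3) (R h3 h0),
    dist'_map (R h0 h4) (R h4 h0), dist'_map (R h1 h2) (R h2 h1), dist'_map (R h1 h3) (R h3 h1),
    dist'_map (R h1 h4) (R h4 h1), dist'_map (R h2 h3) (R h3 h2), dist'_map (R h2 h4) (R h4 h2),
    dist'_map (R h3 h4) (R h4 h3), nb_map (R h2 h0) (R h3 h0) (R h4 h0),
    nb_map (R h2 h1) (R h3 h1) (R h4 h1)]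

theorem btw_map {D : Type*} [LinearOrder D] {f : C → D} {l : Finset C}
    (hf : ∀ a ∈ l, ∀ b ∈ l, (a < b ↔ f a < f b)) {x y0 y1 : C}
    (h0 : x ∈ l) (h1 : y0 ∈ l) (h2 : y1 ∈ l) :
    Btw (f x) (f y0) (f y1) = Btw x y0 y1 := by
  unfold Btw
  refine if_congr ?_ rfl rfl
  unfold BtwP
  rw [← hf _ h1 _ h0, ← hf _ h0 _ h2, ← hf _ h2 _ h0, ← hf _ h0 _ h1]

/-- Six-letter identity, split `3 + 3`. -/
theorem alt33 (a a' z y0 y1 y2 : C)
    (h1 : a ≠ y0) (h2 : a ≠ y1) (h3 : a ≠ y2) (h4 : a' ≠ y0) (h5 : a' ≠ y1) (h6 : a' ≠ y2)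
    (h7 : z ≠ y0) (h8 : z ≠ y1) (h9 : z ≠ y2) :
    Alt a z y0 y1 y2 + Alt a' z y0 y1 y2 + Alt a a' y0 y1 y2 +
      Alt y1 y2 a a' z + Alt y0 y2 a a' z + Alt y0 y1 a a' z = 0 := by
  classical
  let l : Finset C := {a, a', z, y0, y1, y2}
  have hl : l.card ≤ 6 := Finset.card_le_six
  obtain ⟨f, hf⟩ := exists_rank l hl
  have ma : a ∈ l := by simp [l]
  have ma' : a' ∈ l := by simp [l]
  have mz : z ∈ l := by simp [l]
  have m0 : y0 ∈ l := by simp [l]
  have m1 : y1 ∈ l := by simp [l]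
  have m2 : y2 ∈ l := by simp [l]
  have D : ∀ {u v}, u ∈ l → v ∈ l → u ≠ v → dist' (f u) (f v) := fun hu hv huv =>
    (dist'_map (hf _ hu _ hv) (hf _ hv _ hu)).2 (dist'_iff.2 huv)
  have := alt33_fin (f a) (f a') (f z) (f y0) (f y1) (f y2) (D ma m0 h1) (D ma m1 h2) (D ma m2 h3)
    (D ma' m0 h4) (D ma' m1 h5) (D ma' m2 h6) (D mz m0 h7) (D mz m1 h8) (D mz m2 h9)
  rw [alt_map hf ma mz m0 m1 m2, alt_map hf ma' mz m0 m1 m2, alt_map hf ma ma' m0 m1 m2,
    alt_map hf m1 m2 ma ma' mz, alt_map hf m0 m2 ma ma' mz, alt_map hf m0 m1 ma ma' mz] at this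
  exact this

/-- Six-letter identity, split `2 + 4`. -/
theorem alt24 (x0 x1 y0 y1 y2 y3 : C)
    (h1 : x0 ≠ y0) (h2 : x0 ≠ y1) (h3 : x0 ≠ y2) (h4 : x0 ≠ y3)
    (h5 : x1 ≠ y0) (h6 : x1 ≠ y1) (h7 : x1 ≠ y2) (h8 : x1 ≠ y3) :
    Alt x0 x1 y1 y2 y3 + Alt x0 x1 y0 y2 y3 + Alt x0 x1 y0 y1 y3 + Alt x0 x1 y0 y1 y2 = 0 := by
  classical
  let l : Finset C := {x0, x1, y0, y1, y2, y3}
  have hl : l.card ≤ 6 := Finset.card_le_six
  obtain ⟨f, hf⟩ := exists_rank l hl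
  have ma : x0 ∈ l := by simp [l]
  have ma' : x1 ∈ l := by simp [l]
  have m0 : y0 ∈ l := by simp [l]
  have m1 : y1 ∈ l := by simp [l]
  have m2 : y2 ∈ l := by simp [l]
  have m3 : y3 ∈ l := by simp [l]
  have D : ∀ {u v}, u ∈ l → v ∈ l → u ≠ v → dist' (f u) (f v) := fun hu hv huv =>
    (dist'_map (hf _ hu _ hv) (hf _ hv _ hu)).2 (dist'_iff.2 huv)
  have := alt24_fin (f x0) (f x1) (f y0) (f y1) (f y2) (f y3)
    (D ma m0 h1) (D ma m1 h2) (D ma m2 h3) (D ma m3 h4)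
    (D ma' m0 h5) (D ma' m1 h6) (D ma' m2 h7) (D ma' m3 h8)
  rw [alt_map hf ma ma' m1 m2 m3, alt_map hf ma ma' m0 m2 m3, alt_map hf ma ma' m0 m1 m3,
    alt_map hf ma ma' m0 m1 m2] at this
  exact this

/-- Four-letter identity on the line. -/
theorem btw11 (x0 x1 y0 y1 : C) (h1 : x0 ≠ y0) (h2 : x0 ≠ y1) (h3 : x1 ≠ y0) (h4 : x1 ≠ y1) :
    Btw x0 y0 y1 + Btw x1 y0 y1 + Btw y0 x0 x1 + Btw y1 x0 x1 = 0 := by
  classical
  let l : Finset C := {x0, x1, y0, y1}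
  have hl : l.card ≤ 6 := le_trans Finset.card_le_four (by norm_num)
  obtain ⟨f, hf⟩ := exists_rank l hl
  have ma : x0 ∈ l := by simp [l]
  have ma' : x1 ∈ l := by simp [l]
  have m0 : y0 ∈ l := by simp [l]
  have m1 : y1 ∈ l := by simp [l]
  have D : ∀ {u v}, u ∈ l → v ∈ l → u ≠ v → dist' (f u) (f v) := fun hu hv huv =>
    (dist'_map (hf _ hu _ hv) (hf _ hv _ hu)).2 (dist'_iff.2 huv)
  have := btw11_fin (f x0) (f x1) (f y0) (f y1) (D ma m0 h1) (D ma m1 h2) (D ma' m0 h3) (D ma' m1 h4)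
  rw [btw_map hf ma m0 m1, btw_map hf ma' m0 m1, btw_map hf m0 ma ma', btw_map hf m1 ma ma'] at this
  exact this

/-- Point against a triangle boundary on the line. -/
theorem btw02 (x y0 y1 y2 : C) (h1 : x ≠ y0) (h2 : x ≠ y1) (h3 : x ≠ y2) :
    Btw x y1 y2 + Btw x y0 y2 + Btw x y0 y1 = 0 := by
  classical
  let l : Finset C := {x, y0, y1, y2}
  have hl : l.card ≤ 6 := le_trans Finset.card_le_four (by norm_num)
  obtain ⟨f, hf⟩ := exists_rank l hl
  have ma : x ∈ l := by simp [l]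
  have m0 : y0 ∈ l := by simp [l]
  have m1 : y1 ∈ l := by simp [l]
  have m2 : y2 ∈ l := by simp [l]
  have D : ∀ {u v}, u ∈ l → v ∈ l → u ≠ v → dist' (f u) (f v) := fun hu hv huv =>
    (dist'_map (hf _ hu _ hv) (hf _ hv _ hu)).2 (dist'_iff.2 huv)
  have := btw02_fin (f x) (f y0) (f y1) (f y2) (D ma m0 h1) (D ma m1 h2) (D ma m2 h3)
  rw [btw_map hf ma m1 m2, btw_map hf ma m0 m2, btw_map hf ma m0 m1] at this
  exact this

/-- Degenerate `Alt`: repeated label in the triangle. -/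
theorem alt_y_dup12 (x0 x1 a y : C) : Alt x0 x1 a a y = 0 := by
  unfold Alt; rw [if_neg]; unfold AltP; rintro ⟨-, -, -, -, -, -, -, h, -⟩; exact (dist'_iff.1 h) rfl

theorem alt_y_dup02 (x0 x1 a y : C) : Alt x0 x1 a y a = 0 := by
  unfold Alt; rw [if_neg]; unfold AltP; rintro ⟨-, -, -, -, -, -, -, -, h, -⟩; exact (dist'_iff.1 h) rfl

theorem alt_y_dup01 (x0 x1 a y : C) : Alt x0 x1 y a a = 0 := by
  unfold Alt; rw [if_neg]; unfold AltP; rintro ⟨-, -, -, -, -, -, -, -, -, h, -⟩; exact (dist'_iff.1 h) rfl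

theorem alt_x_dup (a y0 y1 y2 : C) : Alt a a y0 y1 y2 = 0 := by
  unfold Alt; rw [if_neg]; unfold AltP; rintro ⟨h, -⟩; exact (dist'_iff.1 h) rfl

theorem btw_dup (x a : C) : Btw x a a = 0 := by
  unfold Btw; rw [if_neg]; unfold BtwP; rintro (⟨h1, h2⟩ | ⟨h1, h2⟩) <;> exact lt_asymm h1 h2

end Transfer

end BorsukT2
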