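import Crest.Agent.BorsukT2.Alt

/-!
# Finite checks on six colours
-/

set_option autoImplicit false

namespace BorsukT2

/-- Indicator of the unordered pair `{x,z}`. -/
def edgeInd {C : Type*} [DecidableEq C] (x z a b : C) : Z2 :=
  if (a = x ∧ b = z) ∨ (a = z ∧ b = x) then 1 else 0

/-- Sum of `Alt` over all pairs of the six colours. -/
def cAlt (y0 y1 y2 : Fin 6) : Z2 :=
  ∑ x0 : Fin 6, ∑ x1 : Fin 6, if x0 < x1 then Alt x0 x1 y0 y1 y2 else 0

set_option maxRecDepth 100000 in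
theorem alt_expand : ∀ u v y0 y1 y2 : Fin 6,
    Alt u v y0 y1 y2 = ∑ x0 : Fin 6, ∑ x1 : Fin 6,
      if x0 < x1 then Alt x0 x1 y0 y1 y2 * edgeInd x0 x1 u v else 0 := by
  decide +kernel

set_option maxRecDepth 100000 in
theorem cAlt_eval : ∀ y0 y1 y2 : Fin 6, cAlt y0 y1 y2 =
    (if ({y0, y1, y2} : Finset (Fin 6)) = {0, 2, 4} then 1 else 0) +
    (if ({y0, y1, y2} : Finset (Fin 6)) = {1, 3, 5} then 1 else 0) := by
  decide +kernel

/-- Six pairwise distinct elements exhaust `Fin 6`. -/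
theorem six_cover (a b c d e f : Fin 6)
    (h : ({a, b, c, d, e, f} : Finset (Fin 6)).card = 6) (l : Fin 6) :
    l = a ∨ l = b ∨ l = c ∨ l = d ∨ l = e ∨ l = f := by
  have : ({a, b, c, d, e, f} : Finset (Fin 6)) = Finset.univ :=
    Finset.eq_univ_of_card _ (by simpa using h)
  have hl : l ∈ ({a, b, c, d, e, f} : Finset (Fin 6)) := by rw [this]; exact Finset.mem_univ l
  simpa using hl

set_option maxRecDepth 100000 in
theorem third_of_alt : ∀ x0 x1 y0 y1 y2 : Fin 6, AltP x0 x1 y0 y1 y2 →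
    ∃ y : Fin 6, ({x0, y, x1, y0, y1, y2} : Finset (Fin 6)).card = 6 ∧ x0 ≠ y ∧ x0 ≠ x1 ∧ y ≠ x1 := by
  decide +kernel


end BorsukT2
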