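import Crest.Agent.BorsukT2.Ref3

/-!
# Finite check for the Fan count on six colours
-/

set_option autoImplicit false

namespace BorsukT2

/-- Primitive of the Fan count on an edge, in terms of labels and bits. -/
def g2v (a : Fin 6) (x : Z2) (b : Fin 6) (y : Z2) : Z2 :=
  if a < b then x * (x + y) else if b < a then y * (y + x) else 0

/-- The twenty sorted triples. -/
def triples : List (Fin 6 × Fin 6 × Fin 6) :=
  [(0,1,2),(0,1,3),(0,1,4),(0,1,5),(0,2,3),(0,2,4),(0,2,5),(0,3,4),(0,3,5),(0,4,5),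
   (1,2,3),(1,2,4),(1,2,5),(1,3,4),(1,3,5),(1,4,5),(2,3,4),(2,3,5),(2,4,5),(3,4,5)]

/-- Value of the Fan count on a triple of labels. -/
def fanTab (a0 a1 a2 : Fin 6) : Z2 :=
  (triples.map (fun t => if ({a0, a1, a2} : Finset (Fin 6)) = {t.1, t.2.1, t.2.2} then
    sig3 t.1 t.2.1 * sig3 t.2.1 t.2.2 else 0)).sum

/-- Compatibility of bits and labels on an edge. -/
def compat (a : Fin 6) (x : Z2) (b : Fin 6) (y : Z2) : Prop :=
  (a = b → x = y) ∧ (a ≠ b → x + y = sig3 a b)

instance (a : Fin 6) (x : Z2) (b : Fin 6) (y : Z2) : Decidable (compat a x b y) := by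
  unfold compat; infer_instance

set_option maxRecDepth 100000 in
theorem fan_table : ∀ (a0 a1 a2 : Fin 6) (x0 x1 x2 : Z2), compat a0 x0 a1 x1 → compat a0 x0 a2 x2 →
    compat a1 x1 a2 x2 → g2v a1 x1 a2 x2 + g2v a0 x0 a2 x2 + g2v a0 x0 a1 x1 = fanTab a0 a1 a2 := by
  decide +kernel

set_option maxRecDepth 100000 in
theorem triples_card : ∀ t ∈ triples, ({t.1, t.2.1, t.2.2} : Finset (Fin 6)).card = 3 := by
  decide +kernel

end BorsukT2
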