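import Crest.Agent.BorsukT2.LineGeo

/-!
# The hypotheses of the plane level for the chain of a frame
-/

set_option autoImplicit false

namespace BorsukT2

open Crest.Agent.S0069Lib.Chains
open Crest.Agent.S0069Lib

theorem Near.symm {ε : ℝ} {p q : V4} (h : Near ε p q) : Near ε q p := by
  unfold Near at *
  rw [show ∑ i, (q i - p i) ^ 2 = ∑ i, (p i - q i) ^ 2 from
    Finset.sum_congr rfl fun i _ => by ring]
  exact h

/-- What is known about a triple of the plane chain. -/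
structure TriOK (ε : ℝ) (t : V4) (A : Sph × Sph × Sph) : Prop where
  p0 : ip A.1.1 t = 0
  p1 : ip A.2.1.1 t = 0
  p2 : ip A.2.2.1 t = 0
  n01 : Near ε A.1.1 A.2.1.1
  n12 : Near ε A.2.1.1 A.2.2.1
  n02 : Near ε A.1.1 A.2.2.1

section
variable {u : ℕ → V4} (hu : IsFrame u 4) {K : ℕ} (hK : 0 < K)

include hu hK

theorem tuple_props {τ : List V4} (hτ : τ ∈ fc u 4 K 2) {p q : V4} (hp : p ∈ τ) (hq : q ∈ τ) :
    ip p (u 3) = 0 ∧ Near (8 / K) p q := by
  constructor
  · have := fc_orth (u := u) (N := 4) hK (k := 2) (by norm_num) hτ hp (w := u 3) (by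
      intro m hm
      have h := hu 3 m (by norm_num) (by omega)
      rw [if_neg (by omega)] at h
      exact h)
    rw [ip_comm]
    exact this
  · have h := fc_close hu hK (k := 2) (by norm_num) hτ hp hq
    unfold Near
    refine h.trans (le_of_eq ?_)
    push_cast
    ring

theorem mem_frameH {A : Sph × Sph × Sph} (hA : A ∈ (frameChain hu hK).H) :
    TriOK (8 / K) (u 3) A := by
  obtain ⟨τ, hτ, rfl⟩ := List.mem_map.1 hA
  have hlen := fc_length hK (by norm_num) hτ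
  match τ, hlen, hτ with
  | [a, b, c], _, hτ =>
    have ha : ∑ i, a i ^ 2 = 1 := fc_unit hu hK (by norm_num) hτ (by simp)
    have hb : ∑ i, b i ^ 2 = 1 := fc_unit hu hK (by norm_num) hτ (by simp)
    have hc : ∑ i, c i ^ 2 = 1 := fc_unit hu hK (by norm_num) hτ (by simp)
    have ea : (tri3 [a, b, c]).1.1 = a := by simp [tri3, toSph_val ha]
    have eb : (tri3 [a, b, c]).2.1.1 = b := by simp [tri3, toSph_val hb]
    have ec : (tri3 [a, b, c]).2.2.1 = c := by simp [tri3, toSph_val hc]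
    refine ⟨?_, ?_, ?_, ?_, ?_, ?_⟩
    · rw [ea]; exact (tuple_props hu hK hτ (p := a) (q := a) (by simp) (by simp)).1
    · rw [eb]; exact (tuple_props hu hK hτ (p := b) (q := b) (by simp) (by simp)).1
    · rw [ec]; exact (tuple_props hu hK hτ (p := c) (q := c) (by simp) (by simp)).1
    · rw [ea, eb]; exact (tuple_props hu hK hτ (p := a) (q := b) (by simp) (by simp)).2
    · rw [eb, ec]; exact (tuple_props hu hK hτ (p := b) (q := c) (by simp) (by simp)).2
    · rw [ea, ec]; exact (tuple_props hu hK hτ (p := a) (q := c) (by simp) (by simp)).2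

end

/-- Near-orthogonality inside the plane `t^⊥`. -/
def NP (ε : ℝ) (t : V4) (p q : Sph) : Prop :=
  ip p.1 t = 0 ∧ ip q.1 t = 0 ∧ |ip p.1 q.1| ≤ 3 * ε

theorem NP_vv {ε : ℝ} (hε : 3 * ε < 1) {t : V4} (p q : Sph) (h : NP ε t p q) :
    p ≠ q ∧ p ≠ Sph.neg q := by
  obtain ⟨-, -, h⟩ := h
  constructor
  · rintro rfl
    have : ip p.1 p.1 = 1 := by rw [ip_self]; exact p.2
    rw [this, abs_one] at h
    linarith
  · rintro rfl
    have e : ip (Sph.neg q).1 q.1 = - 1 := by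
      rw [show (Sph.neg q).1 = - q.1 from rfl, ip_neg_left, ip_self, q.2]
    rw [e, abs_neg, abs_one] at h
    linarith

section
variable {ε : ℝ} {t : V4}

theorem cross_pair (hε : 0 ≤ ε) {A : Sph × Sph × Sph} (hA : TriOK ε t A) {w : Sph}
    (h : sgn A.1 w + sgn A.2.1 w = 1) :
    |ip A.2.1.1 w.1| ≤ ε ∧ |ip A.2.2.1 w.1| ≤ 2 * ε := by
  obtain ⟨-, h1⟩ := sgn_cross hε h hA.n01
  refine ⟨h1, ?_⟩
  have h2 := abs_ip_sub_le hε w.2 hA.n12
  rw [abs_sub_comm] at h2
  have h3 := abs_sub_abs_le_abs_sub (ip A.2.2.1 w.1) (ip A.2.1.1 w.1)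
  linarith

theorem kap_small (hε : 0 ≤ ε) {A B : Sph × Sph × Sph} (hA : TriOK ε t A) (hB : TriOK ε t B)
    (h : kap sgn A B = 1) {p q : Sph} (hp : p ∈ [A.2.1, A.2.2]) (hq : q ∈ [B.1, B.2.1, B.2.2]) :
    NP ε t p q := by
  obtain ⟨h1, h2⟩ := cross_pair hε hA (w := B.1) h
  have hp' : ip p.1 B.1.1 ≤ 2 * ε ∧ - (2 * ε) ≤ ip p.1 B.1.1 ∧ ip p.1 t = 0 := by
    simp only [List.mem_cons, List.not_mem_nil, or_false] at hp
    rcases hp with rfl | rfl
    · rw [abs_le] at h1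
      exact ⟨by linarith, by linarith, hA.p1⟩
    · rw [abs_le] at h2
      exact ⟨by linarith, by linarith, hA.p2⟩
  have hq' : |ip p.1 q.1 - ip p.1 B.1.1| ≤ ε ∧ ip q.1 t = 0 := by
    simp only [List.mem_cons, List.not_mem_nil, or_false] at hq
    rcases hq with rfl | rfl | rfl
    · simp [hε, hB.p0]
    · exact ⟨abs_ip_sub_le' hε p.2 hB.n01.symm, hB.p1⟩
    · exact ⟨abs_ip_sub_le' hε p.2 hB.n02.symm, hB.p2⟩
  refine ⟨hp'.2.2, hq'.2, ?_⟩
  have := abs_le.1 hq'.1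
  rw [abs_le]
  constructor <;> linarith [hp'.1, hp'.2.1, this.1, this.2]

theorem kap'_small (hε : 0 ≤ ε) {A B : Sph × Sph × Sph} (hA : TriOK ε t A) (hB : TriOK ε t B)
    (h : sgn A.2.1 B.2.1 + sgn A.2.2 B.2.1 = 1) {q : Sph} (hq : q ∈ [B.2.1, B.2.2]) :
    NP ε t A.2.2 q ∧ |ip A.2.2.1 q.1| ≤ 2 * ε := by
  obtain ⟨-, h1⟩ := sgn_cross hε h hA.n12
  have hq' : |ip A.2.2.1 q.1 - ip A.2.2.1 B.2.1.1| ≤ ε ∧ ip q.1 t = 0 := by
    simp only [List.mem_cons, List.not_mem_nil, or_false] at hq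
    rcases hq with rfl | rfl
    · simp [hε, hB.p1]
    · exact ⟨abs_ip_sub_le' hε A.2.2.2 hB.n12.symm, hB.p2⟩
  have h3 : |ip A.2.2.1 q.1| ≤ 2 * ε := by
    have := abs_le.1 hq'.1
    have h1' := abs_le.1 h1
    rw [abs_le]
    constructor <;> linarith [this.1, this.2, h1'.1, h1'.2]
  refine ⟨⟨hA.p2, hq'.2, ?_⟩, h3⟩
  linarith

end

section
variable {u : ℕ → V4} (hu : IsFrame u 4) {K : ℕ} (hK : 0 < K)

/-- The line reference on the polar chain of a plane point. -/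
theorem exists_lineRef (hε : (8 : ℝ) / K ≤ 1 / 100) {W : Sph} (hW : ip W.1 (u 3) = 0) :
    Nonempty (LineRef (Dlist (frameChain hu hK).H sgn W) sgn Sph.neg) := by
  have hε0 : (0 : ℝ) ≤ 8 / K := by positivity
  obtain ⟨e, e', he, he', hee', hew, het, he'w, he't⟩ := exists_ortho_pair W.1 (u 3)
  let E : Sph := ⟨e, he⟩
  let E' : Sph := ⟨e', he'⟩
  have htt : ip (u 3) (u 3) = 1 := by
    have := hu 3 3 (by norm_num) (by norm_num)
    simpa [ip] using this
  have F : BandFrame E E' W (u 3) := ⟨htt, hee', hew, het, he'w, he't, hW⟩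
  have mem : ∀ f ∈ Dlist (frameChain hu hK).H sgn W,
      ∃ A, TriOK (8 / K) (u 3) A ∧ sgn A.1 W + sgn A.2.1 W = 1 ∧ f = (A.2.1, A.2.2) := by
    intro f hf
    obtain ⟨A, hA, hk, rfl⟩ := mem_Dlist hf
    exact ⟨A, mem_frameH hu hK hA, hk, rfl⟩
  refine ⟨⟨nuSec E E', E', nuSec_neg E E', ?_, ?_⟩⟩
  · intro f hf g hg hk q hq heq
    obtain ⟨A, hA, hkA, rfl⟩ := mem f hf
    obtain ⟨B, hB, hkB, rfl⟩ := mem g hg
    obtain ⟨h1, h2⟩ := kap'_small hε0 hA hB hk hq
    have bA := cross_pair hε0 hA hkA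
    have bB := cross_pair hε0 hB hkB
    have hqb : |ip q.1 W.1| ≤ 1 / 50 ∧ ip q.1 (u 3) = 0 := by
      simp only [List.mem_cons, List.not_mem_nil, or_false] at hq
      rcases hq with rfl | rfl
      · exact ⟨by linarith [bB.1], hB.p1⟩
      · exact ⟨by linarith [bB.2], hB.p2⟩
    have := F.margin hA.p2 hqb.2 (by linarith [bA.2]) hqb.1 heq
    linarith
  · intro g hg
    obtain ⟨A, hA, hkA, rfl⟩ := mem g hg
    have bA := cross_pair hε0 hA hkA
    exact F.cross hε0 hε hA.p1 hA.p2 (by linarith [bA.1]) (by linarith [bA.2]) hA.n12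

/-- The plane-level hypotheses for the chain of a frame. -/
noncomputable def frameGeo (hε : (8 : ℝ) / K ≤ 1 / 100) :
    PlaneGeo (frameChain hu hK) sgn (NP (8 / K) (u 3)) where
  vv := NP_vv (by linarith)
  nA := fun A hA B hB hk p hp q hq =>
    kap_small (by positivity) (mem_frameH hu hK hA) (mem_frameH hu hK hB) hk hp hq
  nL := fun A hA B hB hk q hq =>
    (kap'_small (by positivity) (mem_frameH hu hK hA) (mem_frameH hu hK hB) hk hq).1
  ref := fun B hB => Classical.choice (exists_lineRef hu hK hε (mem_frameH hu hK hB).p0)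

end

end BorsukT2
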