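import Crest.Agent.BorsukT2.Tight
import Crest.Agent.S0069Lib.ChainFrames

/-!
# Unit vectors of `ℝ⁴`, signs of inner products, the plane chain of a frame
-/

set_option autoImplicit false

namespace BorsukT2

open Crest.Agent.S0069Lib.Chains
open Crest.Agent.S0069Lib

abbrev V4 := Fin 4 → ℝ

/-- Inner product. -/
def ip (p q : V4) : ℝ := ∑ i, p i * q i

theorem ip_comm (p q : V4) : ip p q = ip q p := by
  unfold ip; exact Finset.sum_congr rfl fun i _ => mul_comm _ _

theorem ip_neg_left (p q : V4) : ip (-p) q = - ip p q := by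
  simp [ip, Finset.sum_neg_distrib]

theorem ip_neg_right (p q : V4) : ip p (-q) = - ip p q := by
  simp [ip, Finset.sum_neg_distrib]

theorem ip_self (p : V4) : ip p p = ∑ i, p i ^ 2 := by
  unfold ip; exact Finset.sum_congr rfl fun i _ => by ring

/-- `ε`-closeness. -/
def Near (ε : ℝ) (p q : V4) : Prop := ∑ i, (p i - q i) ^ 2 ≤ ε ^ 2

theorem abs_ip_sub_le {ε : ℝ} (hε : 0 ≤ ε) {p p' w : V4} (hw : ∑ i, w i ^ 2 = 1)
    (h : Near ε p p') : |ip p w - ip p' w| ≤ ε := by
  have e : ip p w - ip p' w = ∑ i, (p i - p' i) * w i := by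
    unfold ip
    rw [← Finset.sum_sub_distrib]
    exact Finset.sum_congr rfl fun i _ => by ring
  rw [e]
  have cs := Finset.sum_mul_sq_le_sq_mul_sq Finset.univ (fun i => p i - p' i) w
  rw [hw, mul_one] at cs
  exact abs_le_of_sq_le_sq (cs.trans h) hε

theorem abs_ip_sub_le' {ε : ℝ} (hε : 0 ≤ ε) {p q q' : V4} (hp : ∑ i, p i ^ 2 = 1)
    (h : Near ε q q') : |ip p q - ip p q'| ≤ ε := by
  rw [ip_comm p q, ip_comm p q']
  exact abs_ip_sub_le hε hp h

/-- Unit vectors of `ℝ⁴`. -/
abbrev Sph := {p : V4 // ∑ i, p i ^ 2 = 1}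

/-- Antipode. -/
def Sph.neg (p : Sph) : Sph := ⟨-p.1, by simpa using p.2⟩

theorem Sph.neg_neg (p : Sph) : Sph.neg (Sph.neg p) = p := by
  apply Subtype.ext
  simp [Sph.neg]

/-- An odd bit: the sign of the first nonzero coordinate. -/
noncomputable def lex (p : V4) : Z2 :=
  if p 0 < 0 then 1 else if 0 < p 0 then 0 else
  if p 1 < 0 then 1 else if 0 < p 1 then 0 else
  if p 2 < 0 then 1 else if 0 < p 2 then 0 else
  if p 3 < 0 then 1 else 0

theorem lex_neg (p : Sph) : lex (Sph.neg p).1 = lex p.1 + 1 := by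
  have hp := p.2
  obtain ⟨p, hp'⟩ := p
  simp only [Sph.neg, lex, Pi.neg_apply, neg_lt_zero, Left.neg_pos_iff]
  have one : (1 : Z2) + 1 = 0 := by decide
  have hne : ¬ (p 0 = 0 ∧ p 1 = 0 ∧ p 2 = 0 ∧ p 3 = 0) := by
    rintro ⟨h0, h1, h2, h3⟩
    simp [Fin.sum_univ_four, h0, h1, h2, h3] at hp
  rcases lt_trichotomy (p 0) 0 with h0 | h0 | h0
  · simp [h0, h0.not_gt]; exact one.symm
  · rcases lt_trichotomy (p 1) 0 with h1 | h1 | h1
    · simp [h0, h1, h1.not_gt]; exact one.symm
    · rcases lt_trichotomy (p 2) 0 with h2 | h2 | h2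
      · simp [h0, h1, h2, h2.not_gt]; exact one.symm
      · rcases lt_trichotomy (p 3) 0 with h3 | h3 | h3
        · simp [h0, h1, h2, h3, h3.not_gt]; exact one.symm
        · exact absurd ⟨h0, h1, h2, h3⟩ hne
        · simp [h0, h1, h2, h3, h3.not_gt]
      · simp [h0, h1, h2, h2.not_gt]
    · simp [h0, h1, h1.not_gt]
  · simp [h0, h0.not_gt]

/-- The sign of the inner product, with a tie break making it odd in both arguments. -/
noncomputable def sgn (p q : Sph) : Z2 :=
  if ip p.1 q.1 < 0 then 1 else if 0 < ip p.1 q.1 then 0 else lex p.1 + lex q.1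

theorem sgn_of_neg {p q : Sph} (h : ip p.1 q.1 < 0) : sgn p q = 1 := by simp [sgn, h]

theorem sgn_of_pos {p q : Sph} (h : 0 < ip p.1 q.1) : sgn p q = 0 := by simp [sgn, h, h.not_gt]

/-- `sgn` is sign data. -/
theorem sgn_data : SignData Sph.neg sgn where
  symm p q := by
    unfold sgn
    rw [ip_comm q.1 p.1, add_comm (lex q.1)]
  neg_left p q := by
    have e : ip (Sph.neg p).1 q.1 = - ip p.1 q.1 := ip_neg_left _ _
    have one : (1 : Z2) + 1 = 0 := by decide
    unfold sgn
    rw [e, lex_neg]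
    rcases lt_trichotomy (ip p.1 q.1) 0 with h | h | h
    · simp [h, h.not_gt, one]
    · simp [h]
      ring
    · simp [h, h.not_gt]
  self p := by
    have : ip p.1 p.1 = 1 := by rw [ip_self]; exact p.2
    simp [sgn, this]

/-- If the signs differ then the inner products are small. -/
theorem sgn_cross {ε : ℝ} (hε : 0 ≤ ε) {p p' w : Sph} (h : sgn p w + sgn p' w = 1)
    (hn : Near ε p.1 p'.1) : |ip p.1 w.1| ≤ ε ∧ |ip p'.1 w.1| ≤ ε := by
  have hd := abs_ip_sub_le hε w.2 hn
  have one : (1 : Z2) + 1 = 0 := by decide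
  have hp : ¬ (ip p.1 w.1 < 0 ∧ ip p'.1 w.1 < 0) := by
    rintro ⟨h1, h2⟩
    rw [sgn_of_neg h1, sgn_of_neg h2, one] at h
    exact zero_ne_one h
  have hq : ¬ (0 < ip p.1 w.1 ∧ 0 < ip p'.1 w.1) := by
    rintro ⟨h1, h2⟩
    rw [sgn_of_pos h1, sgn_of_pos h2, add_zero] at h
    exact zero_ne_one h
  rw [abs_le] at hd
  constructor <;> rw [abs_le] <;> constructor <;>
    · by_contra hc
      push Not at hc
      first
        | (apply hp; constructor <;> linarith)
        | (apply hq; constructor <;> linarith)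

/-- Total lift to the sphere. -/
noncomputable def toSph (p : V4) : Sph :=
  if h : ∑ i, p i ^ 2 = 1 then ⟨p, h⟩ else ⟨fun i => if i = 0 then 1 else 0, by simp [Fin.sum_univ_four]⟩

theorem toSph_val {p : V4} (h : ∑ i, p i ^ 2 = 1) : (toSph p).1 = p := by
  simp [toSph, h]

theorem toSph_neg {p : V4} (h : ∑ i, p i ^ 2 = 1) : toSph (-p) = Sph.neg (toSph p) := by
  apply Subtype.ext
  have h' : ∑ i, (-p) i ^ 2 = 1 := by simpa using h
  rw [toSph_val h']
  simp [Sph.neg, toSph_val h]

/-- A tuple as a triple of points. -/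
noncomputable def tri3 (τ : List V4) : Sph × Sph × Sph :=
  (toSph (τ.getD 0 0), toSph (τ.getD 1 0), toSph (τ.getD 2 0))

/-- A tuple as a pair of points. -/
noncomputable def pr2 (τ : List V4) : Sph × Sph :=
  (toSph (τ.getD 0 0), toSph (τ.getD 1 0))

/-- The plane chain of a frame. -/
noncomputable def frameChain {u : ℕ → V4} (hu : IsFrame u 4) {K : ℕ} (hK : 0 < K) :
    PlaneChain Sph Sph.neg where
  H := (fc u 4 K 2).map tri3
  R := (fc u 4 K 1).map pr2
  r := toSph (u 0)
  St2 := by
    intro φ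
    have key := fc_St (u := u) (N := 4) hK.ne' 1
      (fun l => φ (toSph (l.getD 0 0)) (toSph (l.getD 1 0)))
    simp only [sumL, List.map_map]
    have hL : ∀ τ ∈ fc u 4 K 2, (Function.comp (fun A : Sph × Sph × Sph =>
        φ A.2.1 A.2.2 + φ A.1 A.2.2 + φ A.1 A.2.1) tri3) τ =
        delta (fun l : List V4 => φ (toSph (l.getD 0 0)) (toSph (l.getD 1 0))) τ := by
      intro τ hτ
      have hlen := fc_length hK (by norm_num) hτ
      match τ, hlen with
      | [a, b, c], _ =>
        simp [delta, Fan.dels, tri3]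
        ring
    have hR : ∀ σ ∈ fc u 4 K 1, (Function.comp (fun e : Sph × Sph =>
        φ e.1 e.2 + φ (Sph.neg e.1) (Sph.neg e.2)) pr2) σ =
        (fun σ : List V4 => (fun l : List V4 => φ (toSph (l.getD 0 0)) (toSph (l.getD 1 0))) σ +
          (fun l : List V4 => φ (toSph (l.getD 0 0)) (toSph (l.getD 1 0))) (σ.map Neg.neg)) σ := by
      intro σ hσ
      have hlen := fc_length hK (by norm_num) hσ
      match σ, hlen, hσ with
      | [a, b], _, hσ =>
        have ha : ∑ i, a i ^ 2 = 1 := fc_unit hu hK (by norm_num) hσ (by simp)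
        have hb : ∑ i, b i ^ 2 = 1 := fc_unit hu hK (by norm_num) hσ (by simp)
        simp [pr2, toSph_neg ha, toSph_neg hb]
    rw [List.map_congr_left hL, List.map_congr_left hR]
    exact key
  St1 := by
    intro g
    have key := fc_St (u := u) (N := 4) hK.ne' 0 (fun l => g (toSph (l.getD 0 0)))
    rw [fc_zero hu (by norm_num)] at key
    have hu0 : ∑ i, u 0 i ^ 2 = 1 := by
      have := hu 0 0 (by norm_num) (by norm_num)
      simpa [sq] using this
    simp only [ev_cons, ev_nil, add_zero] at key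
    simp only [List.getD_cons_zero, List.map_cons, List.map_nil] at key
    rw [toSph_neg hu0] at key
    rw [← key]
    simp only [sumL, List.map_map, ev]
    congr 1
    apply List.map_congr_left
    intro σ hσ
    have hlen := fc_length hK (by norm_num) hσ
    match σ, hlen with
    | [a, b], _ =>
      simp [delta, Fan.dels, pr2]
      ring

end BorsukT2
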