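import Crest.Agent.BorsukT2.Alt

/-!
# Invariance of the bilinear parities under recolouring

Everything here is algebra over `ZMod 2` on lists of ordered tuples; the only property of the chains
is the Stokes formula.
-/

set_option autoImplicit false

namespace BorsukT2

section Lists
variable {α β : Type*}

/-- Sum over a list. -/
def sumL (L : List α) (f : α → Z2) : Z2 := (L.map f).sum

@[simp] theorem sumL_nil (f : α → Z2) : sumL [] f = 0 := rfl
@[simp] theorem sumL_cons (a : α) (L : List α) (f : α → Z2) :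
    sumL (a :: L) f = f a + sumL L f := by simp [sumL]

theorem sumL_add (L : List α) (f g : α → Z2) :
    sumL L (fun a => f a + g a) = sumL L f + sumL L g := by
  induction L with
  | nil => simp
  | cons a L ih => simp only [sumL_cons, ih]; ring

theorem sumL_congr {L : List α} {f g : α → Z2} (h : ∀ a ∈ L, f a = g a) : sumL L f = sumL L g := by
  induction L with
  | nil => simp
  | cons a L ih =>
    simp only [sumL_cons]
    rw [h a (by simp), ih (fun b hb => h b (by simp [hb]))]

theorem sumL_zero (L : List α) : sumL L (fun _ => 0) = 0 := by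
  induction L with
  | nil => simp
  | cons a L ih => simp [ih]

theorem sumL_eq_zero {L : List α} {f : α → Z2} (h : ∀ a ∈ L, f a = 0) : sumL L f = 0 := by
  rw [sumL_congr h, sumL_zero]

theorem sumL_comm (L : List α) (M : List β) (f : α → β → Z2) :
    sumL L (fun a => sumL M (fun b => f a b)) = sumL M (fun b => sumL L (fun a => f a b)) := by
  induction L with
  | nil => simp [sumL_zero]
  | cons a L ih =>
    simp only [sumL_cons]
    rw [ih, sumL_add]

theorem mul_sumL (c : Z2) (L : List α) (f : α → Z2) :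
    c * sumL L f = sumL L (fun a => c * f a) := by
  induction L with
  | nil => simp
  | cons a L ih => simp only [sumL_cons, mul_add, ih]

theorem sumL_mul (c : Z2) (L : List α) (f : α → Z2) :
    sumL L f * c = sumL L (fun a => f a * c) := by
  induction L with
  | nil => simp
  | cons a L ih => simp only [sumL_cons, add_mul, ih]

theorem sumL_const_one_two (x : Z2) : x + x = 0 := CharTwo.add_self_eq_zero x

/-- A symmetric double sum with zero diagonal vanishes mod 2. -/
theorem double_sum_symm_zero (L : List α) (f : α → α → Z2) (hs : ∀ a ∈ L, ∀ b ∈ L, f a b = f b a)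
    (hd : ∀ a ∈ L, f a a = 0) :
    sumL L (fun a => sumL L (fun b => f a b)) = 0 := by
  induction L with
  | nil => simp
  | cons x L ih =>
    have ih' := ih (fun a ha b hb => hs a (by simp [ha]) b (by simp [hb]))
      (fun a ha => hd a (by simp [ha]))
    simp only [sumL_cons]
    rw [sumL_add, ih', hd x (by simp), zero_add, add_zero]
    have : sumL L (fun a => f a x) = sumL L (fun b => f x b) :=
      sumL_congr (fun a ha => hs a (by simp [ha]) x (by simp))
    rw [this]
    exact CharTwo.add_self_eq_zero _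

end Lists

/-- The abstract plane chain: a filling `H` of `R + (-R)`, with `R` joining `r` to `-r`. -/
structure PlaneChain (P : Type*) (neg : P → P) where
  H : List (P × P × P)
  R : List (P × P)
  r : P
  St2 : ∀ φ : P → P → Z2,
    sumL H (fun A => φ A.2.1 A.2.2 + φ A.1 A.2.2 + φ A.1 A.2.1) =
      sumL R (fun e => φ e.1 e.2 + φ (neg e.1) (neg e.2))
  St1 : ∀ g : P → Z2, sumL R (fun e => g e.1 + g e.2) = g r + g (neg r)

/-- Sign data: `s p q` is the sign of the inner product. -/
structure SignData {P : Type*} (neg : P → P) (s : P → P → Z2) : Prop where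
  symm : ∀ p q, s p q = s q p
  neg_left : ∀ p q, s (neg p) q = s p q + 1
  self : ∀ p, s p p = 0

namespace SignData
variable {P : Type*} {neg : P → P} {s : P → P → Z2}

theorem neg_right (hs : SignData neg s) (p q : P) : s p (neg q) = s p q + 1 := by
  rw [hs.symm, hs.neg_left, hs.symm]

end SignData

section Cup
variable {P : Type*} {neg : P → P}

private theorem cup_pt (ha0 ha1 g0 g1 g2 : Z2) :
    ha1 * (g1 + g2) + ha0 * (g0 + g2) + ha0 * (g0 + g1) = (ha0 + ha1) * (g1 + g2) := by
  revert ha0 ha1 g0 g1 g2; decide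

/-- `(δh ∪ δg)(H)` for `h` odd and `g` even vanishes. -/
theorem cup_even (C : PlaneChain P neg) (h g : P → Z2) (hh : ∀ p, h (neg p) = h p + 1)
    (hg : ∀ p, g (neg p) = g p) :
    sumL C.H (fun A => (h A.1 + h A.2.1) * (g A.2.1 + g A.2.2)) = 0 := by
  have key := C.St2 (fun p q => h p * (g p + g q))
  have e1 : sumL C.H (fun A => (h A.1 + h A.2.1) * (g A.2.1 + g A.2.2)) =
      sumL C.R (fun e => g e.1 + g e.2) := by
    rw [sumL_congr (fun A _ => (cup_pt (h A.1) (h A.2.1) (g A.1) (g A.2.1) (g A.2.2)).symm), key]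
    refine sumL_congr (fun e _ => ?_)
    simp only [hh, hg]
    generalize h e.1 = a; generalize g e.1 = b; generalize g e.2 = c
    revert a b c; decide
  rw [e1, C.St1, hg]
  exact CharTwo.add_self_eq_zero _

/-- `(δh ∪ δh')(H) = 1` for `h`, `h'` odd. -/
theorem cup_odd (C : PlaneChain P neg) (h g : P → Z2) (hh : ∀ p, h (neg p) = h p + 1)
    (hg : ∀ p, g (neg p) = g p + 1) :
    sumL C.H (fun A => (h A.1 + h A.2.1) * (g A.2.1 + g A.2.2)) = 1 := by
  have key := C.St2 (fun p q => h p * (g p + g q))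
  have e1 : sumL C.H (fun A => (h A.1 + h A.2.1) * (g A.2.1 + g A.2.2)) =
      sumL C.R (fun e => g e.1 + g e.2) := by
    rw [sumL_congr (fun A _ => (cup_pt (h A.1) (h A.2.1) (g A.1) (g A.2.1) (g A.2.2)).symm), key]
    refine sumL_congr (fun e _ => ?_)
    simp only [hh, hg]
    generalize h e.1 = a; generalize g e.1 = b; generalize g e.2 = c
    revert a b c; decide
  rw [e1, C.St1, hg]
  generalize g C.r = a
  revert a; decide

private theorem cup2_pt (u0 u1 t12 t02 t01 : Z2) :
    u0 * (t12 + t02 + t01) = (u1 * t12 + u0 * t02 + u0 * t01) + (u0 + u1) * t12 := by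
  revert u0 u1 t12 t02 t01; decide

/-- Stokes trade for `u` even, `θ` even. -/
theorem cup_even2 (C : PlaneChain P neg) (u : P → Z2) (θ : P → P → Z2)
    (hu : ∀ p, u (neg p) = u p) (hθ : ∀ p q, θ (neg p) (neg q) = θ p q) :
    sumL C.H (fun B => u B.1 * (θ B.2.1 B.2.2 + θ B.1 B.2.2 + θ B.1 B.2.1)) =
      sumL C.H (fun B => (u B.1 + u B.2.1) * θ B.2.1 B.2.2) := by
  have key := C.St2 (fun p q => u p * θ p q)
  have e0 : sumL C.R (fun e => u e.1 * θ e.1 e.2 + u (neg e.1) * θ (neg e.1) (neg e.2)) = 0 := by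
    refine sumL_eq_zero (fun e _ => ?_)
    rw [hu, hθ]; exact CharTwo.add_self_eq_zero _
  rw [e0] at key
  rw [sumL_congr (fun B _ => cup2_pt (u B.1) (u B.2.1) (θ B.2.1 B.2.2) (θ B.1 B.2.2) (θ B.1 B.2.1)),
    sumL_add, key, zero_add]

/-- `(δh ∪ ψ)(H) = ψ(R)` for `h` odd and `ψ` even and closed on `H`. -/
theorem cup_closed (C : PlaneChain P neg) (h : P → Z2) (ψ : P → P → Z2)
    (hh : ∀ p, h (neg p) = h p + 1) (hψ : ∀ p q, ψ (neg p) (neg q) = ψ p q)
    (hc : ∀ A ∈ C.H, ψ A.2.1 A.2.2 + ψ A.1 A.2.2 + ψ A.1 A.2.1 = 0) :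
    sumL C.H (fun A => (h A.1 + h A.2.1) * ψ A.2.1 A.2.2) = sumL C.R (fun e => ψ e.1 e.2) := by
  have key := C.St2 (fun p q => h p * ψ p q)
  have e1 : sumL C.H (fun A => (h A.1 + h A.2.1) * ψ A.2.1 A.2.2) =
      sumL C.H (fun A => h A.2.1 * ψ A.2.1 A.2.2 + h A.1 * ψ A.1 A.2.2 + h A.1 * ψ A.1 A.2.1) := by
    refine sumL_congr (fun A hA => ?_)
    have := hc A hA
    generalize ψ A.2.1 A.2.2 = a at *
    generalize ψ A.1 A.2.2 = b at *
    generalize ψ A.1 A.2.1 = c at *
    generalize h A.1 = d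
    generalize h A.2.1 = f
    revert this a b c d f; decide
  rw [e1, key]
  refine sumL_congr (fun e _ => ?_)
  simp only [hh, hψ]
  generalize h e.1 = a; generalize ψ e.1 e.2 = b
  revert a b; decide

end Cup

section Plane
variable {P C : Type*} [LinearOrder C] {neg : P → P} {s : P → P → Z2}

/-- `κ(A,B)`: the edge `A₀A₁` crosses the polar of `B₀`. -/
def kap (s : P → P → Z2) (A B : P × P × P) : Z2 := s A.1 B.1 + s A.2.1 B.1

/-- The bilinear parity `F`. -/
def Fval (H : List (P × P × P)) (s : P → P → Z2) (μ : P → C) : Z2 :=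
  sumL H fun A => sumL H fun B => kap s A B * Alt (μ A.2.1) (μ A.2.2) (μ B.1) (μ B.2.1) (μ B.2.2)

/-- A recolouring of an even set `V` from colour `a` to colour `a'`. -/
structure Recolor (neg : P → P) (V : P → Prop) (μ μ' : P → C) (a a' : C) : Prop where
  V_neg : ∀ p, V (neg p) ↔ V p
  mu_V : ∀ p, V p → μ p = a
  mu'_V : ∀ p, V p → μ' p = a'
  mu_nV : ∀ p, ¬ V p → μ' p = μ p
  even : ∀ p, μ (neg p) = μ p

section Word
variable (V : P → Prop) [DecidablePred V] (μ : P → C) (a a' : C)

/-- The prism word of an edge meeting `V`. -/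
def wordOf (e : P × P) : C × C × C :=
  if V e.1 then (a, a', μ e.2) else (μ e.1, a, a')

/-- Whether an edge meets `V`. -/
def Ve (e : P × P) : Prop := V e.1 ∨ V e.2

instance (e : P × P) : Decidable (Ve V e) := by unfold Ve; infer_instance

/-- The symmetric even two-edge functional `Θ`. -/
def TT (e f : P × P) : Z2 :=
  if Ve V e then
    (if Ve V f then 0 else
      Alt (μ f.1) (μ f.2) (wordOf V μ a a' e).1 (wordOf V μ a a' e).2.1 (wordOf V μ a a' e).2.2)
  else
    (if Ve V f then
      Alt (μ e.1) (μ e.2) (wordOf V μ a a' f).1 (wordOf V μ a a' f).2.1 (wordOf V μ a a' f).2.2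
    else 0)

theorem TT_symm (e f : P × P) : TT V μ a a' e f = TT V μ a a' f e := by
  unfold TT
  by_cases h1 : Ve V e <;> by_cases h2 : Ve V f <;> simp [h1, h2]

/-- The point functional. -/
def gB (B : P × P × P) (p : P) : Z2 :=
  if V p ∧ ¬ (V B.1 ∨ V B.2.1 ∨ V B.2.2) then Alt a a' (μ B.1) (μ B.2.1) (μ B.2.2) else 0

end Word

section AltPerm
variable {C' : Type*} [LinearOrder C']

set_option maxRecDepth 100000 in
private theorem alt_perm_fin : ∀ x0 x1 y0 y1 y2 : Fin 6,
    Alt x0 x1 y0 y1 y2 = Alt x1 x0 y0 y1 y2 ∧ Alt x0 x1 y0 y1 y2 = Alt x0 x1 y1 y2 y0 := by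
  decide +kernel

theorem alt_perm (x0 x1 y0 y1 y2 : C') :
    Alt x0 x1 y0 y1 y2 = Alt x1 x0 y0 y1 y2 ∧ Alt x0 x1 y0 y1 y2 = Alt x0 x1 y1 y2 y0 := by
  classical
  let l : Finset C' := {x0, x1, y0, y1, y2}
  have hl : l.card ≤ 6 := le_trans Finset.card_le_five (by norm_num)
  obtain ⟨f, hf⟩ := exists_rank l hl
  have m0 : x0 ∈ l := by simp [l]
  have m1 : x1 ∈ l := by simp [l]
  have m2 : y0 ∈ l := by simp [l]
  have m3 : y1 ∈ l := by simp [l]
  have m4 : y2 ∈ l := by simp [l]
  have := alt_perm_fin (f x0) (f x1) (f y0) (f y1) (f y2)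
  rwa [alt_map hf m0 m1 m2 m3 m4, alt_map hf m1 m0 m2 m3 m4, alt_map hf m0 m1 m3 m4 m2] at this

theorem alt_swap_x (x0 x1 y0 y1 y2 : C') : Alt x0 x1 y0 y1 y2 = Alt x1 x0 y0 y1 y2 :=
  (alt_perm _ _ _ _ _).1

theorem alt_rot_y (x0 x1 y0 y1 y2 : C') : Alt x0 x1 y0 y1 y2 = Alt x0 x1 y1 y2 y0 :=
  (alt_perm _ _ _ _ _).2

end AltPerm

private theorem z2_add_self (x : Z2) : x + x = 0 := CharTwo.add_self_eq_zero x

private theorem z2_eq_of_add {x y : Z2} (h : x + y = 0) : x = y := by
  revert x y; decide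

/-- The pointwise recolouring identity. -/
theorem recolor_identity {V : P → Prop} [DecidablePred V] {μ μ' : P → C} {a a' : C}
    (hR : Recolor neg V μ μ' a a') (A1 A2 B0 B1 B2 : P)
    (hd : ∀ p ∈ [A1, A2], ∀ q ∈ [B0, B1, B2], ¬ (V p ∧ V q) ∧ μ p ≠ μ q ∧ μ' p ≠ μ' q) :
    Alt (μ A1) (μ A2) (μ B0) (μ B1) (μ B2) + Alt (μ' A1) (μ' A2) (μ' B0) (μ' B1) (μ' B2) =
      gB V μ a a' (B0, B1, B2) A1 + gB V μ a a' (B0, B1, B2) A2 +
        TT V μ a a' (A1, A2) (B1, B2) + TT V μ a a' (A1, A2) (B0, B2) +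
          TT V μ a a' (A1, A2) (B0, B1) := by
  have h10 := hd A1 (by simp) B0 (by simp)
  have h11 := hd A1 (by simp) B1 (by simp)
  have h12 := hd A1 (by simp) B2 (by simp)
  have h20 := hd A2 (by simp) B0 (by simp)
  have h21 := hd A2 (by simp) B1 (by simp)
  have h22 := hd A2 (by simp) B2 (by simp)
  by_cases vA1 : V A1
  · -- `A1` in `V`: nothing on the `B` side
    have n0 : ¬ V B0 := fun h => h10.1 ⟨vA1, h⟩
    have n1 : ¬ V B1 := fun h => h11.1 ⟨vA1, h⟩
    have n2 : ¬ V B2 := fun h => h12.1 ⟨vA1, h⟩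
    have b0 := hR.mu_nV _ n0
    have b1 := hR.mu_nV _ n1
    have b2 := hR.mu_nV _ n2
    have ma := hR.mu_V _ vA1
    have ma' := hR.mu'_V _ vA1
    rw [ma] at h10 h11 h12
    rw [ma', b0] at h10
    rw [ma', b1] at h11
    rw [ma', b2] at h12
    by_cases vA2 : V A2
    · have mb := hR.mu_V _ vA2
      have mb' := hR.mu'_V _ vA2
      simp only [ma, ma', mb, mb', alt_x_dup, add_zero, gB, TT, Ve, wordOf, vA1, vA2, n0, n1, n2,
        or_self, true_or, or_true, if_true, if_false, not_false_eq_true, and_self, and_true,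
        alt_y_dup02, z2_add_self, zero_add]
    · have mz := hR.mu_nV _ vA2
      rw [mz] at h20 h21 h22
      rw [b0] at h20
      rw [b1] at h21
      rw [b2] at h22
      simp only [ma, ma', mz, b0, b1, b2, gB, TT, Ve, wordOf, vA1, vA2, n0, n1, n2,
        or_self, true_or, or_true, if_true, if_false, not_false_eq_true, and_self, and_true,
        false_and, add_zero]
      have := alt33 a a' (μ A2) (μ B0) (μ B1) (μ B2) h10.2.1 h11.2.1 h12.2.1 h10.2.2 h11.2.2 h12.2.2
        h20.2.1 h21.2.1 h22.2.1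
      apply z2_eq_of_add
      rw [← this]
      ring
  · by_cases vA2 : V A2
    · -- `A2` in `V`, `A1` not
      have n0 : ¬ V B0 := fun h => h20.1 ⟨vA2, h⟩
      have n1 : ¬ V B1 := fun h => h21.1 ⟨vA2, h⟩
      have n2 : ¬ V B2 := fun h => h22.1 ⟨vA2, h⟩
      have b0 := hR.mu_nV _ n0
      have b1 := hR.mu_nV _ n1
      have b2 := hR.mu_nV _ n2
      have ma := hR.mu_V _ vA2
      have ma' := hR.mu'_V _ vA2
      have mz := hR.mu_nV _ vA1
      rw [ma] at h20 h21 h22
      rw [ma', b0] at h20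
      rw [ma', b1] at h21
      rw [ma', b2] at h22
      rw [mz] at h10 h11 h12
      rw [b0] at h10
      rw [b1] at h11
      rw [b2] at h12
      simp only [ma, ma', mz, b0, b1, b2, gB, TT, Ve, wordOf, vA1, vA2, n0, n1, n2,
        or_self, true_or, or_true, if_true, if_false, not_false_eq_true, and_self, and_true,
        false_and, add_zero, zero_add]
      have := alt33 a a' (μ A1) (μ B0) (μ B1) (μ B2) h20.2.1 h21.2.1 h22.2.1 h20.2.2 h21.2.2 h22.2.2
        h10.2.1 h11.2.1 h12.2.1
      rw [alt_swap_x (μ A1) a, alt_swap_x (μ A1) a']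
      rw [alt_rot_y (μ B1) (μ B2) (μ A1) a a', alt_rot_y (μ B0) (μ B2) (μ A1) a a',
        alt_rot_y (μ B0) (μ B1) (μ A1) a a']
      apply z2_eq_of_add
      rw [← this]
      ring
    · -- no `V` on the `A` side
      have mz1 := hR.mu_nV _ vA1
      have mz2 := hR.mu_nV _ vA2
      rw [mz1] at h10 h11 h12
      rw [mz2] at h20 h21 h22
      by_cases v0 : V B0 <;> by_cases v1 : V B1 <;> by_cases v2 : V B2
      · -- (1,1,1)
        simp only [hR.mu_V _ v0, hR.mu_V _ v1, hR.mu_V _ v2, hR.mu'_V _ v0, hR.mu'_V _ v1,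
          hR.mu'_V _ v2, gB, TT, Ve, wordOf, vA1, vA2, v0, v1, v2, or_self, true_or, or_true,
          if_true, if_false, not_true_eq_false, and_false, alt_y_dup12, alt_y_dup02, alt_y_dup01,
          add_zero]
      · -- (1,1,0)
        simp only [hR.mu_V _ v0, hR.mu_V _ v1, hR.mu_nV _ v2, hR.mu'_V _ v0, hR.mu'_V _ v1,
          gB, TT, Ve, wordOf, vA1, vA2, v0, v1, v2, or_self, true_or, or_true, or_false, false_or,
          if_true, if_false, not_true_eq_false, and_false, alt_y_dup12, alt_y_dup02, add_zero,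
          z2_add_self, mz1, mz2, zero_add]
      · -- (1,0,1)
        simp only [hR.mu_V _ v0, hR.mu_V _ v2, hR.mu_nV _ v1, hR.mu'_V _ v0, hR.mu'_V _ v2,
          gB, TT, Ve, wordOf, vA1, vA2, v0, v1, v2, or_self, true_or, or_true, or_false, false_or,
          if_true, if_false, not_true_eq_false, and_false, alt_y_dup02, add_zero, z2_add_self,
          mz1, mz2, zero_add]
        rw [alt_rot_y (μ A1) (μ A2) (μ B1) a a', z2_add_self]
      · -- (1,0,0)
        have b1 := hR.mu_nV _ v1
        have b2 := hR.mu_nV _ v2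
        have c0 := hR.mu_V _ v0
        have c0' := hR.mu'_V _ v0
        rw [c0'] at h10 h20
        rw [c0] at h10 h20
        rw [b1] at h11 h21
        rw [b2] at h12 h22
        simp only [c0, c0', b1, b2,
          gB, TT, Ve, wordOf, vA1, vA2, v0, v1, v2, or_self, true_or, or_true, or_false, false_or,
          if_true, if_false, not_true_eq_false, and_false, add_zero,
          mz1, mz2, zero_add]
        have := alt24 (μ A1) (μ A2) a a' (μ B1) (μ B2) h10.2.1 h10.2.2 h11.2.1 h12.2.1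
          h20.2.1 h20.2.2 h21.2.1 h22.2.1
        apply z2_eq_of_add
        rw [← this]
        ring
      · -- (0,1,1)
        simp only [hR.mu_V _ v2, hR.mu_V _ v1, hR.mu_nV _ v0, hR.mu'_V _ v2, hR.mu'_V _ v1,
          gB, TT, Ve, wordOf, vA1, vA2, v0, v1, v2, or_self, true_or, or_true, or_false, false_or,
          if_true, if_false, not_true_eq_false, and_false, alt_y_dup01, alt_y_dup02, add_zero,
          z2_add_self, mz1, mz2, zero_add]
      · -- (0,1,0)
        have b0 := hR.mu_nV _ v0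
        have b2 := hR.mu_nV _ v2
        have c1 := hR.mu_V _ v1
        have c1' := hR.mu'_V _ v1
        rw [c1'] at h11 h21
        rw [c1] at h11 h21
        rw [b0] at h10 h20
        rw [b2] at h12 h22
        simp only [c1, c1', b0, b2,
          gB, TT, Ve, wordOf, vA1, vA2, v0, v1, v2, or_self, true_or, or_true, or_false, false_or,
          if_true, if_false, not_true_eq_false, and_false, add_zero,
          mz1, mz2, zero_add]
        have := alt24 (μ A1) (μ A2) (μ B0) a a' (μ B2) h10.2.1 h11.2.1 h11.2.2 h12.2.1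
          h20.2.1 h21.2.1 h21.2.2 h22.2.1
        apply z2_eq_of_add
        rw [← this]
        ring
      · -- (0,0,1)
        have b0 := hR.mu_nV _ v0
        have b1 := hR.mu_nV _ v1
        have c2 := hR.mu_V _ v2
        have c2' := hR.mu'_V _ v2
        rw [c2'] at h12 h22
        rw [c2] at h12 h22
        rw [b0] at h10 h20
        rw [b1] at h11 h21
        simp only [c2, c2', b0, b1,
          gB, TT, Ve, wordOf, vA1, vA2, v0, v1, v2, or_self, true_or, or_true, or_false, false_or,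
          if_true, if_false, not_true_eq_false, and_false, add_zero,
          mz1, mz2, zero_add]
        have := alt24 (μ A1) (μ A2) (μ B0) (μ B1) a a' h10.2.1 h11.2.1 h12.2.1 h12.2.2
          h20.2.1 h21.2.1 h22.2.1 h22.2.2
        apply z2_eq_of_add
        rw [← this]
        ring
      · -- (0,0,0)
        simp only [hR.mu_nV _ v0, hR.mu_nV _ v1, hR.mu_nV _ v2,
          gB, TT, Ve, wordOf, vA1, vA2, v0, v1, v2, or_self, true_or, or_true, or_false, false_or,
          if_true, if_false, not_true_eq_false, and_false, add_zero,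
          mz1, mz2, zero_add, z2_add_self]

theorem TT_even {V : P → Prop} [DecidablePred V] {μ μ' : P → C} {a a' : C}
    (hR : Recolor neg V μ μ' a a') (e f : P × P) :
    TT V μ a a' e (neg f.1, neg f.2) = TT V μ a a' e f := by
  have hVe : ∀ e : P × P, Ve V (neg e.1, neg e.2) ↔ Ve V e := by
    intro e
    simp [Ve, hR.V_neg]
  have hW : ∀ e : P × P, wordOf V μ a a' (neg e.1, neg e.2) = wordOf V μ a a' e := by
    intro e
    simp [wordOf, hR.V_neg, hR.even]
  unfold TT
  simp only [hVe, hW, hR.even]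

theorem gB_even {V : P → Prop} [DecidablePred V] {μ μ' : P → C} {a a' : C}
    (hR : Recolor neg V μ μ' a a') (B : P × P × P) (p : P) :
    gB V μ a a' B (neg p) = gB V μ a a' B p := by
  simp [gB, hR.V_neg]

private theorem mul_eq_of_identity {k x y : Z2} (h : k = 1 → x = y) : k * x = k * y := by
  have : k = 0 ∨ k = 1 := by clear h; revert k; decide
  rcases this with rfl | rfl
  · simp
  · rw [h rfl]

private theorem Omega_pt (k t1 t2 t3 g1 g2 : Z2) :
    k * (g1 + g2 + t1 + t2 + t3) = k * (g1 + g2) + k * (t1 + t2 + t3) := by ring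

/-- **Invariance of `F` under recolouring.** -/
theorem Fval_recolor (Ch : PlaneChain P neg) (hs : SignData neg s)
    {V : P → Prop} [DecidablePred V] {μ μ' : P → C} {a a' : C}
    (hR : Recolor neg V μ μ' a a')
    (hd : ∀ A ∈ Ch.H, ∀ B ∈ Ch.H, kap s A B = 1 →
      ∀ p ∈ [A.2.1, A.2.2], ∀ q ∈ [B.1, B.2.1, B.2.2], ¬ (V p ∧ V q) ∧ μ p ≠ μ q ∧ μ' p ≠ μ' q) :
    Fval Ch.H s μ = Fval Ch.H s μ' := by
  apply z2_eq_of_add
  unfold Fval
  rw [← sumL_add]
  -- pointwise identity
  have step1 : ∀ A ∈ Ch.H, (sumL Ch.H fun B => kap s A B *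
        Alt (μ A.2.1) (μ A.2.2) (μ B.1) (μ B.2.1) (μ B.2.2)) +
      (sumL Ch.H fun B => kap s A B *
        Alt (μ' A.2.1) (μ' A.2.2) (μ' B.1) (μ' B.2.1) (μ' B.2.2)) =
      (sumL Ch.H fun B => kap s A B * (gB V μ a a' B A.2.1 + gB V μ a a' B A.2.2)) +
      (sumL Ch.H fun B => kap s A B * (TT V μ a a' (A.2.1, A.2.2) (B.2.1, B.2.2) +
          TT V μ a a' (A.2.1, A.2.2) (B.1, B.2.2) + TT V μ a a' (A.2.1, A.2.2) (B.1, B.2.1))) := by
    intro A hA
    rw [← sumL_add, ← sumL_add]
    refine sumL_congr (fun B hB => ?_)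
    rw [← mul_add, ← Omega_pt]
    apply mul_eq_of_identity
    intro hk
    have := recolor_identity hR A.2.1 A.2.2 B.1 B.2.1 B.2.2 (hd A hA B hB hk)
    rw [this]
  rw [sumL_congr step1, sumL_add]
  -- first part
  have part1 : (sumL Ch.H fun A => sumL Ch.H fun B =>
      kap s A B * (gB V μ a a' B A.2.1 + gB V μ a a' B A.2.2)) = 0 := by
    rw [sumL_comm]
    refine sumL_eq_zero (fun B _ => ?_)
    exact cup_even Ch (fun p => s p B.1) (gB V μ a a' B) (fun p => hs.neg_left p B.1)
      (gB_even hR B)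
  -- second part
  have part2 : (sumL Ch.H fun A => sumL Ch.H fun B =>
      kap s A B * (TT V μ a a' (A.2.1, A.2.2) (B.2.1, B.2.2) +
          TT V μ a a' (A.2.1, A.2.2) (B.1, B.2.2) + TT V μ a a' (A.2.1, A.2.2) (B.1, B.2.1))) = 0 := by
    have e : ∀ A ∈ Ch.H, (sumL Ch.H fun B =>
      kap s A B * (TT V μ a a' (A.2.1, A.2.2) (B.2.1, B.2.2) +
          TT V μ a a' (A.2.1, A.2.2) (B.1, B.2.2) + TT V μ a a' (A.2.1, A.2.2) (B.1, B.2.1))) =
        sumL Ch.H fun B => (s A.1 B.1 + s A.2.1 B.1 + (s A.1 B.2.1 + s A.2.1 B.2.1)) *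
          TT V μ a a' (A.2.1, A.2.2) (B.2.1, B.2.2) := by
      intro A _
      have := cup_even2 Ch (fun q => s A.1 q + s A.2.1 q)
        (fun p q => TT V μ a a' (A.2.1, A.2.2) (p, q))
        (fun p => by
          simp only [hs.neg_right]
          generalize s A.1 p = x; generalize s A.2.1 p = y
          revert x y; decide)
        (fun p q => TT_even hR (A.2.1, A.2.2) (p, q))
      exact this
    rw [sumL_congr e]
    refine double_sum_symm_zero _ _ (fun A _ B _ => ?_) (fun A _ => ?_)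
    · rw [TT_symm]
      congr 1
      rw [hs.symm A.1 B.1, hs.symm A.2.1 B.1, hs.symm A.1 B.2.1, hs.symm A.2.1 B.2.1]
      ring
    · rw [hs.self, hs.self, hs.symm A.2.1 A.1]
      generalize s A.1 A.2.1 = x
      have : (0 + x + (x + 0)) = 0 := by revert x; decide
      rw [this, zero_mul]
  rw [part1, part2, add_zero]

end Plane

section Line
variable {P C : Type*} [LinearOrder C] {neg : P → P} {s : P → P → Z2}

/-- An abstract line chain: a list of pairs which is a cycle for even functionals and has odd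
intersection with odd functionals. -/
structure LineChain (P : Type*) (neg : P → P) where
  D : List (P × P)
  Cy : ∀ g : P → Z2, (∀ p, g (neg p) = g p) → sumL D (fun f => g f.1 + g f.2) = 0
  Od : ∀ h : P → Z2, (∀ p, h (neg p) = h p + 1) → sumL D (fun f => h f.1 + h f.2) = 1

/-- `κ'(f,g)`: the edge `f` crosses the polar of `g₀`. -/
def kap' (s : P → P → Z2) (f g : P × P) : Z2 := s f.1 g.1 + s f.2 g.1

/-- The bilinear parity `F'` on a line chain. -/
def Fline (D : List (P × P)) (s : P → P → Z2) (μ : P → C) : Z2 :=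
  sumL D fun f => sumL D fun g => kap' s f g * Btw (μ f.2) (μ g.1) (μ g.2)

section
variable (V : P → Prop) [DecidablePred V] (μ : P → C) (a a' : C)

/-- The symmetric even point-pair functional on the line. -/
def TL (p q : P) : Z2 :=
  if V p then (if V q then 0 else Btw (μ q) a a') else (if V q then Btw (μ p) a a' else 0)

theorem TL_symm (p q : P) : TL V μ a a' p q = TL V μ a a' q p := by
  unfold TL
  by_cases h1 : V p <;> by_cases h2 : V q <;> simp [h1, h2]

end

private theorem z2_add_self' (x : Z2) : x + x = 0 := CharTwo.add_self_eq_zero x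

private theorem z2_eq_of_add' {x y : Z2} (h : x + y = 0) : x = y := by
  revert x y; decide

theorem recolor_line_identity {V : P → Prop} [DecidablePred V] {μ μ' : P → C} {a a' : C}
    (hR : Recolor neg V μ μ' a a') (x y0 y1 : P)
    (hd : ∀ q ∈ [y0, y1], ¬ (V x ∧ V q) ∧ μ x ≠ μ q ∧ μ' x ≠ μ' q) :
    Btw (μ x) (μ y0) (μ y1) + Btw (μ' x) (μ' y0) (μ' y1) =
      TL V μ a a' x y0 + TL V μ a a' x y1 := by
  have h0 := hd y0 (by simp)
  have h1 := hd y1 (by simp)
  by_cases vx : V x
  · have n0 : ¬ V y0 := fun h => h0.1 ⟨vx, h⟩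
    have n1 : ¬ V y1 := fun h => h1.1 ⟨vx, h⟩
    have b0 := hR.mu_nV _ n0
    have b1 := hR.mu_nV _ n1
    have ma := hR.mu_V _ vx
    have ma' := hR.mu'_V _ vx
    rw [ma, ma', b0] at h0
    rw [ma, ma', b1] at h1
    simp only [ma, ma', b0, b1, TL, vx, n0, n1, if_true, if_false]
    have := btw11 a a' (μ y0) (μ y1) h0.2.1 h1.2.1 h0.2.2 h1.2.2
    apply z2_eq_of_add'
    rw [← this]
    ring
  · have mx := hR.mu_nV _ vx
    rw [mx] at h0 h1
    by_cases v0 : V y0 <;> by_cases v1 : V y1
    · simp only [mx, hR.mu_V _ v0, hR.mu_V _ v1, hR.mu'_V _ v0, hR.mu'_V _ v1, TL, vx, v0, v1,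
        if_true, if_false, btw_dup, add_zero, z2_add_self']
    · have c0 := hR.mu_V _ v0
      have c0' := hR.mu'_V _ v0
      have b1 := hR.mu_nV _ v1
      rw [c0'] at h0
      rw [c0] at h0
      rw [b1] at h1
      simp only [mx, c0, c0', b1, TL, vx, v0, v1, if_true, if_false, add_zero]
      have := btw02 (μ x) a a' (μ y1) h0.2.1 h0.2.2 h1.2.1
      apply z2_eq_of_add'
      rw [← this]
      ring
    · have c1 := hR.mu_V _ v1
      have c1' := hR.mu'_V _ v1
      have b0 := hR.mu_nV _ v0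
      rw [c1'] at h1
      rw [c1] at h1
      rw [b0] at h0
      simp only [mx, c1, c1', b0, TL, vx, v0, v1, if_true, if_false, zero_add]
      have := btw02 (μ x) (μ y0) a a' h0.2.1 h1.2.1 h1.2.2
      apply z2_eq_of_add'
      rw [← this]
      ring
    · simp only [mx, hR.mu_nV _ v0, hR.mu_nV _ v1, TL, vx, v0, v1, if_false, add_zero, z2_add_self']

private theorem mul_eq_of_identity' {k x y : Z2} (h : k = 1 → x = y) : k * x = k * y := by
  have : k = 0 ∨ k = 1 := by clear h; revert k; decide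
  rcases this with rfl | rfl
  · simp
  · rw [h rfl]

private theorem line_pt (u0 u1 t0 t1 : Z2) :
    u0 * (t0 + t1) = (u0 * t0 + u1 * t1) + (u0 + u1) * t1 := by
  revert u0 u1 t0 t1; decide

/-- **Invariance of `F'` under recolouring.** -/
theorem Fline_recolor (Ch : LineChain P neg) (hs : SignData neg s)
    {V : P → Prop} [DecidablePred V] {μ μ' : P → C} {a a' : C}
    (hR : Recolor neg V μ μ' a a')
    (hd : ∀ f ∈ Ch.D, ∀ g ∈ Ch.D, kap' s f g = 1 →
      ∀ q ∈ [g.1, g.2], ¬ (V f.2 ∧ V q) ∧ μ f.2 ≠ μ q ∧ μ' f.2 ≠ μ' q) :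
    Fline Ch.D s μ = Fline Ch.D s μ' := by
  apply z2_eq_of_add'
  unfold Fline
  rw [← sumL_add]
  have step1 : ∀ f ∈ Ch.D, (sumL Ch.D fun g => kap' s f g * Btw (μ f.2) (μ g.1) (μ g.2)) +
      (sumL Ch.D fun g => kap' s f g * Btw (μ' f.2) (μ' g.1) (μ' g.2)) =
      sumL Ch.D fun g => kap' s f g * (TL V μ a a' f.2 g.1 + TL V μ a a' f.2 g.2) := by
    intro f hf
    rw [← sumL_add]
    refine sumL_congr (fun g hg => ?_)
    rw [← mul_add]
    apply mul_eq_of_identity'
    intro hk
    exact recolor_line_identity hR f.2 g.1 g.2 (hd f hf g hg hk)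
  rw [sumL_congr step1]
  have e : ∀ f ∈ Ch.D, (sumL Ch.D fun g => kap' s f g * (TL V μ a a' f.2 g.1 + TL V μ a a' f.2 g.2)) =
      sumL Ch.D fun g => (s f.1 g.1 + s f.2 g.1 + (s f.1 g.2 + s f.2 g.2)) * TL V μ a a' f.2 g.2 := by
    intro f _
    have hu : ∀ p, s f.1 (neg p) + s f.2 (neg p) = s f.1 p + s f.2 p := by
      intro p
      simp only [hs.neg_right]
      generalize s f.1 p = x; generalize s f.2 p = y
      revert x y; decide
    have hT : ∀ p, TL V μ a a' f.2 (neg p) = TL V μ a a' f.2 p := by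
      intro p
      simp [TL, hR.V_neg, hR.even]
    have hcy := Ch.Cy (fun q => (s f.1 q + s f.2 q) * TL V μ a a' f.2 q)
      (fun p => by simp only [hu, hT])
    unfold kap'
    rw [sumL_congr (fun g _ => line_pt (s f.1 g.1 + s f.2 g.1) (s f.1 g.2 + s f.2 g.2)
      (TL V μ a a' f.2 g.1) (TL V μ a a' f.2 g.2)), sumL_add, hcy, zero_add]
  rw [sumL_congr e]
  refine double_sum_symm_zero _ _ (fun f _ g _ => ?_) (fun f _ => ?_)
  · rw [TL_symm]
    congr 1
    rw [hs.symm f.1 g.1, hs.symm f.2 g.1, hs.symm f.1 g.2, hs.symm f.2 g.2]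
    ring
  · rw [hs.self, hs.self, hs.symm f.2 f.1]
    generalize s f.1 f.2 = x
    have : (0 + x + (x + 0)) = 0 := by revert x; decide
    rw [this, zero_mul]

end Line

section DChain
variable {P : Type*} {neg : P → P} {s : P → P → Z2}

/-- The polar chain `D(w)`: `∑_A κ(A,w) (A₁,A₂)` as a list. -/
def Dlist (H : List (P × P × P)) (s : P → P → Z2) (w : P) : List (P × P) :=
  (H.filter (fun A => decide (s A.1 w + s A.2.1 w = 1))).map (fun A => (A.2.1, A.2.2))

theorem sumL_Dlist (H : List (P × P × P)) (s : P → P → Z2) (w : P) (φ : P × P → Z2) :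
    sumL (Dlist H s w) φ = sumL H (fun A => (s A.1 w + s A.2.1 w) * φ (A.2.1, A.2.2)) := by
  induction H with
  | nil => simp [Dlist]
  | cons A H ih =>
    simp only [Dlist] at ih ⊢
    have hk : s A.1 w + s A.2.1 w = 0 ∨ s A.1 w + s A.2.1 w = 1 := by
      generalize s A.1 w + s A.2.1 w = x; revert x; decide
    rcases hk with hk | hk
    · simp [hk, ih]
    · simp [hk, ih]

/-- The polar chain of a point of a plane chain is a line chain. -/
def polarChain (Ch : PlaneChain P neg) (hs : SignData neg s) (w : P) : LineChain P neg where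
  D := Dlist Ch.H s w
  Cy := fun g hg => by
    rw [sumL_Dlist]
    exact cup_even Ch (fun p => s p w) g (fun p => hs.neg_left p w) hg
  Od := fun h hh => by
    rw [sumL_Dlist]
    exact cup_odd Ch (fun p => s p w) h (fun p => hs.neg_left p w) hh

theorem mem_Dlist {H : List (P × P × P)} {w : P} {f : P × P} (hf : f ∈ Dlist H s w) :
    ∃ A ∈ H, s A.1 w + s A.2.1 w = 1 ∧ f = (A.2.1, A.2.2) := by
  simp only [Dlist, List.mem_map, List.mem_filter, decide_eq_true_eq] at hf
  obtain ⟨A, ⟨hA, hk⟩, rfl⟩ := hf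
  exact ⟨A, hA, hk, rfl⟩

end DChain

end BorsukT2
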