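import Crest.Agent.BorsukT2.Geo
import Crest.Agent.S0069Lib.Faces

/-!
# The reference labelling of a polar band
-/

set_option autoImplicit false

namespace BorsukT2

open Crest.Agent.S0069Lib.Chains
open Crest.Agent.S0069Lib

/-- Parseval for an orthonormal basis of `ℝ⁴`. -/
theorem parseval4 (e e' w t : V4)
    (hee : ip e e = 1) (he'e' : ip e' e' = 1) (hww : ip w w = 1) (htt : ip t t = 1)
    (hee' : ip e e' = 0) (hew : ip e w = 0) (het : ip e t = 0) (he'w : ip e' w = 0)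
    (he't : ip e' t = 0) (hwt : ip w t = 0) (p q : V4) :
    ip p q = ip p e * ip q e + ip p e' * ip q e' + ip p w * ip q w + ip p t * ip q t := by
  let M : Matrix (Fin 4) (Fin 4) ℝ := fun i j => (![e, e', w, t] : Fin 4 → V4) i j
  have hrow : ∀ i j, ip (M i) (M j) = if i = j then 1 else 0 := by
    intro i j
    fin_cases i <;> fin_cases j
    · change ip e e = _; simp [hee]
    · change ip e e' = _; simp [hee']
    · change ip e w = _; simp [hew]
    · change ip e t = _; simp [het]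
    · change ip e' e = _; rw [ip_comm]; simp [hee']
    · change ip e' e' = _; simp [he'e']
    · change ip e' w = _; simp [he'w]
    · change ip e' t = _; simp [he't]
    · change ip w e = _; rw [ip_comm]; simp [hew]
    · change ip w e' = _; rw [ip_comm]; simp [he'w]
    · change ip w w = _; simp [hww]
    · change ip w t = _; simp [hwt]
    · change ip t e = _; rw [ip_comm]; simp [het]
    · change ip t e' = _; rw [ip_comm]; simp [he't]
    · change ip t w = _; rw [ip_comm]; simp [hwt]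
    · change ip t t = _; simp [htt]
  have hM : M * M.transpose = 1 := by
    ext i j
    have h1 : (M * M.transpose) i j = ip (M i) (M j) := by
      simp [Matrix.mul_apply, ip]
    rw [h1, hrow, Matrix.one_apply]
  have hM' : M.transpose * M = 1 := mul_eq_one_comm.1 hM
  have hij : ∀ i j : Fin 4, e i * e j + e' i * e' j + w i * w j + t i * t j =
      if i = j then 1 else 0 := by
    intro i j
    have h2 : (M.transpose * M) i j = e i * e j + e' i * e' j + w i * w j + t i * t j := by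
      simp only [Matrix.mul_apply, Fin.sum_univ_four, Matrix.transpose_apply]
      rfl
    rw [← h2, hM', Matrix.one_apply]
  have h00 := hij 0 0
  have h01 := hij 0 1
  have h02 := hij 0 2
  have h03 := hij 0 3
  have h10 := hij 1 0
  have h11 := hij 1 1
  have h12 := hij 1 2
  have h13 := hij 1 3
  have h20 := hij 2 0
  have h21 := hij 2 1
  have h22 := hij 2 2
  have h23 := hij 2 3
  have h30 := hij 3 0
  have h31 := hij 3 1
  have h32 := hij 3 2
  have h33 := hij 3 3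
  simp at h00 h01 h02 h03 h10 h11 h12 h13 h20 h21 h22 h23 h30 h31 h32 h33
  simp only [ip, Fin.sum_univ_four]
  linear_combination -(p 0 * q 0 * h00 + p 0 * q 1 * h01 + p 0 * q 2 * h02 + p 0 * q 3 * h03 + p 1 * q 0 * h10 + p 1 * q 1 * h11 + p 1 * q 2 * h12 + p 1 * q 3 * h13 + p 2 * q 0 * h20 + p 2 * q 1 * h21 + p 2 * q 2 * h22 + p 2 * q 3 * h23 + p 3 * q 0 * h30 + p 3 * q 1 * h31 + p 3 * q 2 * h32 + p 3 * q 3 * h33)

section Margin

private theorem sq_ge_of_abs {x c : ℝ} (hx : 0 ≤ x) (hc : 0 ≤ c) (h : c ^ 2 ≤ x ^ 2) : c ≤ x :=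
  abs_le_of_sq_le_sq' h hx |>.2

/-- Margin in the sector `|b| > 2 |a|`. -/
theorem margin_S2 {a1 b1 c1 a2 b2 c2 : ℝ} (h1 : a1 ^ 2 + b1 ^ 2 + c1 ^ 2 = 1)
    (h2 : a2 ^ 2 + b2 ^ 2 + c2 ^ 2 = 1) (hc1 : |c1| ≤ 1 / 50) (hc2 : |c2| ≤ 1 / 50)
    (hs1 : 2 * |a1| < |b1|) (hs2 : 2 * |a2| < |b2|) :
    1 / 20 ≤ |a1 * a2 + b1 * b2 + c1 * c2| := by
  have hx1 := abs_nonneg a1
  have hx2 := abs_nonneg a2
  have hy1 := abs_nonneg b1
  have hy2 := abs_nonneg b2
  have hz1 := abs_nonneg c1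
  have hz2 := abs_nonneg c2
  have e1 : |a1| ^ 2 + |b1| ^ 2 + |c1| ^ 2 = 1 := by simpa [sq_abs] using h1
  have e2 : |a2| ^ 2 + |b2| ^ 2 + |c2| ^ 2 = 1 := by simpa [sq_abs] using h2
  set X1 := |a1|
  set X2 := |a2|
  set Y1 := |b1|
  set Y2 := |b2|
  set Z1 := |c1|
  set Z2' := |c2|
  have hY1 : 4 / 5 ≤ Y1 := by
    by_contra hc
    push Not at hc
    nlinarith
  have hY2 : 4 / 5 ≤ Y2 := by
    by_contra hc
    push Not at hc
    nlinarith
  have key : |b1 * b2| ≤ |a1 * a2 + b1 * b2 + c1 * c2| + |a1 * a2| + |c1 * c2| := by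
    have : b1 * b2 = (a1 * a2 + b1 * b2 + c1 * c2) - a1 * a2 - c1 * c2 := by ring
    calc |b1 * b2| = |(a1 * a2 + b1 * b2 + c1 * c2) - a1 * a2 - c1 * c2| := by rw [← this]
      _ ≤ |(a1 * a2 + b1 * b2 + c1 * c2) - a1 * a2| + |c1 * c2| := abs_sub _ _
      _ ≤ |a1 * a2 + b1 * b2 + c1 * c2| + |a1 * a2| + |c1 * c2| := by
        have := abs_sub (a1 * a2 + b1 * b2 + c1 * c2) (a1 * a2)
        linarith
  rw [abs_mul, abs_mul, abs_mul] at key
  have h3 : X1 * X2 ≤ Y1 * Y2 / 4 := by nlinarith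
  have h4 : Z1 * Z2' ≤ 1 / 2500 := by nlinarith
  have h5 : 16 / 25 ≤ Y1 * Y2 := by nlinarith
  linarith

/-- Margin in the sectors `|b| ≤ 2 |a|`, `a b` of constant sign. -/
theorem margin_S13 {a1 b1 c1 a2 b2 c2 : ℝ} (h1 : a1 ^ 2 + b1 ^ 2 + c1 ^ 2 = 1)
    (h2 : a2 ^ 2 + b2 ^ 2 + c2 ^ 2 = 1) (hc1 : |c1| ≤ 1 / 50) (hc2 : |c2| ≤ 1 / 50)
    (hs1 : |b1| ≤ 2 * |a1|) (hs2 : |b2| ≤ 2 * |a2|) (hp : 0 ≤ (a1 * b1) * (a2 * b2)) :
    1 / 20 ≤ |a1 * a2 + b1 * b2 + c1 * c2| := by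
  have hx1 := abs_nonneg a1
  have hx2 := abs_nonneg a2
  have hy1 := abs_nonneg b1
  have hy2 := abs_nonneg b2
  have hz1 := abs_nonneg c1
  have hz2 := abs_nonneg c2
  have e1 : |a1| ^ 2 + |b1| ^ 2 + |c1| ^ 2 = 1 := by simpa [sq_abs] using h1
  have e2 : |a2| ^ 2 + |b2| ^ 2 + |c2| ^ 2 = 1 := by simpa [sq_abs] using h2
  have hX1 : 2 / 5 ≤ |a1| := by
    by_contra hc
    push Not at hc
    nlinarith
  have hX2 : 2 / 5 ≤ |a2| := by
    by_contra hc
    push Not at hc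
    nlinarith
  have hZ : |c1 * c2| ≤ 1 / 2500 := by
    rw [abs_mul]; nlinarith
  have hXX : 4 / 25 ≤ |a1 * a2| := by
    rw [abs_mul]; nlinarith
  have hsum : |a1 * a2| ≤ |a1 * a2 + b1 * b2| := by
    have hq : 0 ≤ (a1 * a2) * (b1 * b2) := by nlinarith
    rcases le_total 0 (a1 * a2) with hn | hn
    · rw [abs_of_nonneg hn]
      rcases hn.eq_or_lt with hz | hz
      · rw [← hz]; exact abs_nonneg _
      · have hb : 0 ≤ b1 * b2 := by
          by_contra hc
          push Not at hc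
          nlinarith
        rw [abs_of_nonneg (show 0 ≤ a1 * a2 + b1 * b2 by linarith)]
        linarith
    · rw [abs_of_nonpos hn]
      rcases hn.eq_or_lt with hz | hz
      · have h0 : -(a1 * a2) ≤ 0 := by linarith [hz.ge, hz.le]
        exact h0.trans (abs_nonneg _)
      · have hb : b1 * b2 ≤ 0 := by
          by_contra hc
          push Not at hc
          nlinarith
        rw [abs_of_nonpos (show a1 * a2 + b1 * b2 ≤ 0 by linarith)]
        linarith
  have key : |a1 * a2 + b1 * b2| ≤ |a1 * a2 + b1 * b2 + c1 * c2| + |c1 * c2| := by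
    have : a1 * a2 + b1 * b2 = (a1 * a2 + b1 * b2 + c1 * c2) - c1 * c2 := by ring
    calc |a1 * a2 + b1 * b2| = |(a1 * a2 + b1 * b2 + c1 * c2) - c1 * c2| := by rw [← this]
      _ ≤ _ := abs_sub _ _
  linarith

end Margin

section Signs

theorem sgn_same_ab {p E E' : Sph} (h : sgn p E = sgn p E') : 0 ≤ ip p.1 E.1 * ip p.1 E'.1 := by
  rcases lt_trichotomy (ip p.1 E.1) 0 with h1 | h1 | h1
  · rw [sgn_of_neg h1] at h
    have h2 : ip p.1 E'.1 ≤ 0 := by
      by_contra hc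
      push Not at hc
      rw [sgn_of_pos hc] at h
      exact one_ne_zero h
    nlinarith
  · rw [h1]; simp
  · rw [sgn_of_pos h1] at h
    have h2 : 0 ≤ ip p.1 E'.1 := by
      by_contra hc
      push Not at hc
      rw [sgn_of_neg hc] at h
      exact zero_ne_one h
    nlinarith

theorem sgn_diff_ab {p E E' : Sph} (h : sgn p E ≠ sgn p E') : ip p.1 E.1 * ip p.1 E'.1 ≤ 0 := by
  rcases lt_trichotomy (ip p.1 E.1) 0 with h1 | h1 | h1
  · rw [sgn_of_neg h1] at h
    have h2 : 0 ≤ ip p.1 E'.1 := by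
      by_contra hc
      push Not at hc
      rw [sgn_of_neg hc] at h
      exact h rfl
    nlinarith
  · rw [h1]; simp
  · rw [sgn_of_pos h1] at h
    have h2 : ip p.1 E'.1 ≤ 0 := by
      by_contra hc
      push Not at hc
      rw [sgn_of_pos hc] at h
      exact h rfl
    nlinarith

/-- Two points with inner products of the same strict sign have the same `sgn`. -/
theorem sgn_eq_of_large {x y E : Sph} {c : ℝ} (hc : 0 < c) (hx : c ≤ |ip x.1 E.1|)
    (hxy : |ip x.1 E.1 - ip y.1 E.1| < c) : sgn x E = sgn y E := by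
  rw [abs_lt] at hxy
  rcases le_abs'.1 hx with h | h
  · have h1 : ip x.1 E.1 < 0 := by linarith
    have h2 : ip y.1 E.1 < 0 := by linarith
    rw [sgn_of_neg h1, sgn_of_neg h2]
  · have h1 : 0 < ip x.1 E.1 := by linarith
    have h2 : 0 < ip y.1 E.1 := by linarith
    rw [sgn_of_pos h1, sgn_of_pos h2]

end Signs

/-- The three sectors. -/
noncomputable def nuSec (E E' : Sph) (p : Sph) : Fin 3 :=
  if 2 * |ip p.1 E.1| < |ip p.1 E'.1| then 1 else if sgn p E = sgn p E' then 0 else 2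

theorem nuSec_neg (E E' : Sph) (p : Sph) : nuSec E E' (Sph.neg p) = nuSec E E' p := by
  unfold nuSec
  have h1 : ip (Sph.neg p).1 E.1 = - ip p.1 E.1 := ip_neg_left _ _
  have h2 : ip (Sph.neg p).1 E'.1 = - ip p.1 E'.1 := ip_neg_left _ _
  rw [h1, h2, abs_neg, abs_neg, sgn_data.neg_left, sgn_data.neg_left]
  have : (sgn p E + 1 = sgn p E' + 1) ↔ sgn p E = sgn p E' := add_left_inj _
  simp only [this]

section Band

variable {E E' W : Sph} {t : V4}

/-- Data of a frame `E, E', W, t`. -/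
structure BandFrame (E E' W : Sph) (t : V4) : Prop where
  htt : ip t t = 1
  hee' : ip E.1 E'.1 = 0
  hew : ip E.1 W.1 = 0
  het : ip E.1 t = 0
  he'w : ip E'.1 W.1 = 0
  he't : ip E'.1 t = 0
  hwt : ip W.1 t = 0

theorem BandFrame.pars (F : BandFrame E E' W t) (p q : Sph) (hp : ip p.1 t = 0) :
    ip p.1 q.1 = ip p.1 E.1 * ip q.1 E.1 + ip p.1 E'.1 * ip q.1 E'.1 + ip p.1 W.1 * ip q.1 W.1 := by
  have := parseval4 E.1 E'.1 W.1 t (by rw [ip_self]; exact E.2) (by rw [ip_self]; exact E'.2)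
    (by rw [ip_self]; exact W.2) F.htt F.hee' F.hew F.het F.he'w F.he't F.hwt p.1 q.1
  rw [this, hp]
  ring

theorem BandFrame.unit (F : BandFrame E E' W t) (p : Sph) (hp : ip p.1 t = 0) :
    ip p.1 E.1 ^ 2 + ip p.1 E'.1 ^ 2 + ip p.1 W.1 ^ 2 = 1 := by
  have h := F.pars p p hp
  have h1 : ip p.1 p.1 = 1 := by rw [ip_self]; exact p.2
  rw [h1] at h
  nlinarith

/-- Same sector means large inner product on the band. -/
theorem BandFrame.margin (F : BandFrame E E' W t) {p q : Sph} (hp : ip p.1 t = 0)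
    (hq : ip q.1 t = 0) (hcp : |ip p.1 W.1| ≤ 1 / 50) (hcq : |ip q.1 W.1| ≤ 1 / 50)
    (h : nuSec E E' p = nuSec E E' q) : 1 / 20 ≤ |ip p.1 q.1| := by
  rw [F.pars p q hp]
  have up := F.unit p hp
  have uq := F.unit q hq
  unfold nuSec at h
  by_cases h1 : 2 * |ip p.1 E.1| < |ip p.1 E'.1| <;> by_cases h2 : 2 * |ip q.1 E.1| < |ip q.1 E'.1|
  · exact margin_S2 up uq hcp hcq h1 h2
  · exfalso
    rw [if_pos h1, if_neg h2] at h
    split_ifs at h <;> simp at h
  · exfalso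
    rw [if_neg h1, if_pos h2] at h
    split_ifs at h <;> simp at h
  · rw [if_neg h1, if_neg h2] at h
    push Not at h1 h2
    by_cases h3 : sgn p E = sgn p E' <;> by_cases h4 : sgn q E = sgn q E'
    · exact margin_S13 up uq hcp hcq h1 h2 (mul_nonneg (sgn_same_ab h3) (sgn_same_ab h4))
    · rw [if_pos h3, if_neg h4] at h; simp at h
    · rw [if_neg h3, if_pos h4] at h; simp at h
    · exact margin_S13 up uq hcp hcq h1 h2
        (mul_nonneg_of_nonpos_of_nonpos (sgn_diff_ab h3) (sgn_diff_ab h4))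

private theorem edge_case1 : ∀ σ τx τy : Z2, τx + τy = 1 →
    edge02 (if σ = τx then 0 else 2) (if σ = τy then 0 else 2) = τx + τy := by decide

private theorem edge_case0 : ∀ σ τx τy : Z2, τx + τy = 0 →
    edge02 (if σ = τx then 0 else 2) (if σ = τy then 0 else 2) = τx + τy := by decide

/-- The crossing property of the sectors. -/
theorem BandFrame.cross (F : BandFrame E E' W t) {ε : ℝ} (hε0 : 0 ≤ ε) (hε : ε ≤ 1 / 100) {x y : Sph}
    (hx : ip x.1 t = 0) (hy : ip y.1 t = 0) (hcx : |ip x.1 W.1| ≤ 1 / 50)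
    (hcy : |ip y.1 W.1| ≤ 1 / 50) (hn : Near ε x.1 y.1) :
    edge02 (nuSec E E' x) (nuSec E E' y) = sgn x E' + sgn y E' := by
  have ux := F.unit x hx
  have uy := F.unit y hy
  have dE := abs_ip_sub_le hε0 E.2 hn
  have cx2 : ip x.1 W.1 ^ 2 ≤ (1 / 50) ^ 2 := by
    rw [← sq_abs]; exact pow_le_pow_left₀ (abs_nonneg _) hcx 2
  have cy2 : ip y.1 W.1 ^ 2 ≤ (1 / 50) ^ 2 := by
    rw [← sq_abs]; exact pow_le_pow_left₀ (abs_nonneg _) hcy 2
  -- `a` is large as soon as the point is not in the `b`-sector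
  have large : ∀ z : Sph, ip z.1 E.1 ^ 2 + ip z.1 E'.1 ^ 2 + ip z.1 W.1 ^ 2 = 1 →
      ip z.1 W.1 ^ 2 ≤ (1 / 50) ^ 2 →
      |ip z.1 E'.1| ≤ 2 * |ip z.1 E.1| → 2 / 5 ≤ |ip z.1 E.1| := by
    intro z h1 h2 h3
    by_contra hc
    push Not at hc
    have h4 : |ip z.1 E'.1| ^ 2 ≤ (2 * |ip z.1 E.1|) ^ 2 :=
      pow_le_pow_left₀ (abs_nonneg _) h3 2
    rw [sq_abs, mul_pow, sq_abs] at h4
    have h5 : ip z.1 E.1 ^ 2 < (2 / 5) ^ 2 := by
      rw [← sq_abs]; exact pow_lt_pow_left₀ hc (abs_nonneg _) (by norm_num)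
    nlinarith
  have hk : sgn x E' + sgn y E' = 0 ∨ sgn x E' + sgn y E' = 1 := by
    generalize sgn x E' + sgn y E' = k; revert k; decide
  rcases hk with hk | hk
  · rw [hk]
    unfold edge02
    rw [if_neg]
    rintro (⟨h0, h2⟩ | ⟨h0, h2⟩) <;>
    · unfold nuSec at h0 h2
      by_cases h3 : 2 * |ip x.1 E.1| < |ip x.1 E'.1|
      · rw [if_pos h3] at h0; simp at h0
      by_cases h4 : 2 * |ip y.1 E.1| < |ip y.1 E'.1|
      · rw [if_pos h4] at h2; simp at h2
      rw [if_neg h3] at h0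
      rw [if_neg h4] at h2
      push Not at h3 h4
      have lx := large x ux cx2 h3
      have hs : sgn x E = sgn y E := sgn_eq_of_large (c := 2 / 5) (by norm_num) lx (by linarith)
      have h5 : sgn x E' = sgn y E' := by
        have : ∀ a b : Z2, a + b = 0 → a = b := by decide
        exact this _ _ hk
      rw [hs, h5] at h0
      split_ifs at h0 h2 <;> simp at h0 h2
  · obtain ⟨bx, by'⟩ := sgn_cross hε0 hk hn
    have nb : ∀ z : Sph, ip z.1 E.1 ^ 2 + ip z.1 E'.1 ^ 2 + ip z.1 W.1 ^ 2 = 1 →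
        ip z.1 W.1 ^ 2 ≤ (1 / 50) ^ 2 → |ip z.1 E'.1| ≤ ε →
        |ip z.1 E'.1| ≤ 2 * |ip z.1 E.1| := by
      intro z h1 h2 h3
      have h4 : |ip z.1 E'.1| ^ 2 ≤ ε ^ 2 := pow_le_pow_left₀ (abs_nonneg _) h3 2
      rw [sq_abs] at h4
      by_contra hc
      push Not at hc
      have h6 : 2 * |ip z.1 E.1| < 1 / 100 := by linarith
      have h7 : |ip z.1 E.1| < 1 / 200 := by linarith
      have h8 : ip z.1 E.1 ^ 2 < (1 / 200) ^ 2 := by
        rw [← sq_abs]; exact pow_lt_pow_left₀ h7 (abs_nonneg _) (by norm_num)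
      nlinarith
    have nx := nb x ux cx2 bx
    have ny := nb y uy cy2 by'
    have lx := large x ux cx2 nx
    have hs : sgn x E = sgn y E := sgn_eq_of_large (c := 2 / 5) (by norm_num) lx (by linarith)
    have e1 : nuSec E E' x = if sgn x E = sgn x E' then 0 else 2 := by
      unfold nuSec; rw [if_neg (not_lt.2 nx)]
    have e2 : nuSec E E' y = if sgn x E = sgn y E' then 0 else 2 := by
      unfold nuSec; rw [if_neg (not_lt.2 ny), hs]
    rw [e1, e2]
    exact edge_case1 _ _ _ hk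

end Band

end BorsukT2
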