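import Crest.Agent.BorsukT2.Inv

/-!
# From one-set recolourings to arbitrary pairs of labellings
-/

set_option autoImplicit false

namespace BorsukT2

section Path
variable {P C : Type*} [LinearOrder C] {neg : P → P}

/-- Path of recolourings between two even admissible labellings with disjoint ranges. -/
theorem recolor_path (hnn : ∀ p, neg (neg p) = p) (Φ : (P → C) → Z2) (N : P → P → Prop)
    (hNvv : ∀ p q, N p q → p ≠ q ∧ p ≠ neg q)
    (step : ∀ (μ μ' : P → C) (V : P → Prop) (a a' : C) [DecidablePred V],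
      Recolor neg V μ μ' a a' → (∀ p q, N p q → ¬ (V p ∧ V q) ∧ μ p ≠ μ q ∧ μ' p ≠ μ' q) →
        Φ μ = Φ μ')
    (L : List P) (hcongr : ∀ μ μ' : P → C, (∀ p ∈ L, μ p = μ' p) → Φ μ = Φ μ')
    (μ₁ μ₂ : P → C) (he₁ : ∀ p, μ₁ (neg p) = μ₁ p) (he₂ : ∀ p, μ₂ (neg p) = μ₂ p)
    (ha₁ : ∀ p q, N p q → μ₁ p ≠ μ₁ q) (ha₂ : ∀ p q, N p q → μ₂ p ≠ μ₂ q)
    (hdis : ∀ p q, μ₁ p ≠ μ₂ q) : Φ μ₁ = Φ μ₂ := by
  classical
  let mix : List P → P → C := fun S p => if p ∈ S ∨ neg p ∈ S then μ₂ p else μ₁ p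
  have hadm : ∀ S p q, N p q → mix S p ≠ mix S q := by
    intro S p q hpq
    simp only [mix]
    split_ifs
    · exact ha₂ p q hpq
    · exact (hdis q p).symm
    · exact hdis p q
    · exact ha₁ p q hpq
  have heven : ∀ S p, mix S (neg p) = mix S p := by
    intro S p
    simp only [mix, hnn]
    by_cases h : p ∈ S ∨ neg p ∈ S
    · rw [if_pos h, if_pos (Or.symm h), he₂]
    · rw [if_neg h, if_neg (by tauto), he₁]
  have hall : ∀ S : List P, Φ μ₁ = Φ (mix S) := by
    intro S
    induction S with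
    | nil =>
      have : mix [] = μ₁ := by
        funext p
        simp [mix]
      rw [this]
    | cons v S ih =>
      rw [ih]
      by_cases hv : v ∈ S ∨ neg v ∈ S
      · have : mix (v :: S) = mix S := by
          funext p
          simp only [mix, List.mem_cons]
          have : (p = v ∨ p ∈ S) ∨ (neg p = v ∨ neg p ∈ S) ↔ p ∈ S ∨ neg p ∈ S := by
            constructor
            · rintro ((rfl | h) | (h | h))
              · exact hv
              · exact Or.inl h
              · rcases hv with hv | hv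
                · right; rw [h]; exact hv
                · left; rw [← h, hnn] at hv; exact hv
              · exact Or.inr h
            · rintro (h | h)
              · exact Or.inl (Or.inr h)
              · exact Or.inr (Or.inr h)
          rw [if_congr this rfl rfl]
        rw [this]
      · push Not at hv
        have hR : Recolor neg (fun p => p = v ∨ p = neg v) (mix S) (mix (v :: S)) (μ₁ v) (μ₂ v) := by
          refine ⟨?_, ?_, ?_, ?_, heven S⟩
          · intro p
            constructor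
            · rintro (h | h)
              · right; rw [← h, hnn]
              · left
                have := congrArg neg h
                rwa [hnn, hnn] at this
            · rintro (h | h)
              · right; rw [h]
              · left; rw [h, hnn]
          · rintro p (rfl | rfl)
            · simp [mix, hv.1, hv.2]
            · simp only [mix, hnn]
              rw [if_neg (by tauto), he₁]
          · rintro p (rfl | rfl)
            · simp [mix]
            · simp only [mix, hnn, List.mem_cons, true_or, or_true, if_true, he₂]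
          · intro p hp
            push Not at hp
            simp only [mix, List.mem_cons]
            have h1 : ¬ neg p = v := by
              intro h
              apply hp.2
              rw [← h, hnn]
            rw [if_congr (show (p = v ∨ p ∈ S) ∨ (neg p = v ∨ neg p ∈ S) ↔ p ∈ S ∨ neg p ∈ S by
              simp [hp.1, h1]) rfl rfl]
        refine step (mix S) (mix (v :: S)) _ (μ₁ v) (μ₂ v) hR (fun p q hpq => ⟨?_, hadm S p q hpq, hadm _ p q hpq⟩)
        rintro ⟨hp, hq⟩
        obtain ⟨h1, h2⟩ := hNvv p q hpq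
        rcases hp with rfl | rfl <;> rcases hq with rfl | rfl
        · exact h1 rfl
        · exact h2 (hnn _).symm
        · exact h2 rfl
        · exact h1 rfl
  rw [hall L]
  exact hcongr _ _ (fun p hp => by simp [mix, hp])

end Path

section Transport
variable {C D : Type*} [LinearOrder C] [LinearOrder D]

theorem alt_map' {f : C → D} (hf : ∀ a b, a < b ↔ f a < f b) (x0 x1 y0 y1 y2 : C) :
    Alt (f x0) (f x1) (f y0) (f y1) (f y2) = Alt x0 x1 y0 y1 y2 := by
  classical
  exact alt_map (l := {x0, x1, y0, y1, y2}) (fun a _ b _ => hf a b) (by simp) (by simp) (by simp)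
    (by simp) (by simp)

theorem btw_map' {f : C → D} (hf : ∀ a b, a < b ↔ f a < f b) (x y0 y1 : C) :
    Btw (f x) (f y0) (f y1) = Btw x y0 y1 := by
  classical
  exact btw_map (l := {x, y0, y1}) (fun a _ b _ => hf a b) (by simp) (by simp) (by simp)

end Transport

section Global
variable {P : Type*} {neg : P → P} {s : P → P → Z2}

/-- All points of a list of triples. -/
def ptsH (H : List (P × P × P)) : List P :=
  H.flatMap (fun A => [A.1, A.2.1, A.2.2])

/-- All points of a list of pairs. -/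
def ptsD (D : List (P × P)) : List P :=
  D.flatMap (fun A => [A.1, A.2])

/-- `F` does not depend on the labelling, among admissible ones, whatever the ordered colour sets. -/
theorem Fval_eq {C₁ C₂ : Type*} [LinearOrder C₁] [LinearOrder C₂]
    (Ch : PlaneChain P neg) (hs : SignData neg s) (hnn : ∀ p, neg (neg p) = p)
    (N : P → P → Prop) (hNvv : ∀ p q, N p q → p ≠ q ∧ p ≠ neg q)
    (hN : ∀ A ∈ Ch.H, ∀ B ∈ Ch.H, kap s A B = 1 →
      ∀ p ∈ [A.2.1, A.2.2], ∀ q ∈ [B.1, B.2.1, B.2.2], N p q)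
    (μ₁ : P → C₁) (μ₂ : P → C₂) (he₁ : ∀ p, μ₁ (neg p) = μ₁ p) (he₂ : ∀ p, μ₂ (neg p) = μ₂ p)
    (ha₁ : ∀ p q, N p q → μ₁ p ≠ μ₁ q) (ha₂ : ∀ p q, N p q → μ₂ p ≠ μ₂ q) :
    Fval Ch.H s μ₁ = Fval Ch.H s μ₂ := by
  classical
  let i₁ : C₁ → C₁ ⊕ₗ C₂ := fun c => toLex (Sum.inl c)
  let i₂ : C₂ → C₁ ⊕ₗ C₂ := fun c => toLex (Sum.inr c)
  have h₁ : ∀ a b, a < b ↔ i₁ a < i₁ b := fun a b => by simp [i₁, Sum.Lex.toLex_lt_toLex]
  have h₂ : ∀ a b, a < b ↔ i₂ a < i₂ b := fun a b => by simp [i₂, Sum.Lex.toLex_lt_toLex]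
  have e₁ : Fval Ch.H s (fun p => i₁ (μ₁ p)) = Fval Ch.H s μ₁ := by
    unfold Fval
    simp only [alt_map' h₁]
  have e₂ : Fval Ch.H s (fun p => i₂ (μ₂ p)) = Fval Ch.H s μ₂ := by
    unfold Fval
    simp only [alt_map' h₂]
  rw [← e₁, ← e₂]
  refine recolor_path hnn (fun μ => Fval Ch.H s μ) N hNvv ?_ (ptsH Ch.H) ?_ _ _
    (fun p => by simp only [he₁]) (fun p => by simp only [he₂]) ?_ ?_ ?_
  · intro μ μ' V a a' _ hR hd
    exact Fval_recolor Ch hs hR (fun A hA B hB hk p hp q hq => hd p q (hN A hA B hB hk p hp q hq))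
  · intro μ μ' h
    unfold Fval
    refine sumL_congr (fun A hA => sumL_congr (fun B hB => ?_))
    have hm : ∀ {T : P × P × P}, T ∈ Ch.H → μ T.1 = μ' T.1 ∧ μ T.2.1 = μ' T.2.1 ∧ μ T.2.2 = μ' T.2.2 := by
      intro T hT
      refine ⟨h _ ?_, h _ ?_, h _ ?_⟩ <;>
        · simp only [ptsH, List.mem_flatMap]
          exact ⟨T, hT, by simp⟩
    obtain ⟨_, a1, a2⟩ := hm hA
    obtain ⟨b0, b1, b2⟩ := hm hB
    rw [a1, a2, b0, b1, b2]
  · intro p q hpq hc
    exact ha₁ p q hpq (by simpa [i₁] using hc)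
  · intro p q hpq hc
    exact ha₂ p q hpq (by simpa [i₂] using hc)
  · intro p q hc
    simp [i₁, i₂] at hc

/-- `F'` does not depend on the labelling, among admissible ones, whatever the ordered colour sets. -/
theorem Fline_eq {C₁ C₂ : Type*} [LinearOrder C₁] [LinearOrder C₂]
    (Ch : LineChain P neg) (hs : SignData neg s) (hnn : ∀ p, neg (neg p) = p)
    (N : P → P → Prop) (hNvv : ∀ p q, N p q → p ≠ q ∧ p ≠ neg q)
    (hN : ∀ f ∈ Ch.D, ∀ g ∈ Ch.D, kap' s f g = 1 → ∀ q ∈ [g.1, g.2], N f.2 q)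
    (μ₁ : P → C₁) (μ₂ : P → C₂) (he₁ : ∀ p, μ₁ (neg p) = μ₁ p) (he₂ : ∀ p, μ₂ (neg p) = μ₂ p)
    (ha₁ : ∀ p q, N p q → μ₁ p ≠ μ₁ q) (ha₂ : ∀ p q, N p q → μ₂ p ≠ μ₂ q) :
    Fline Ch.D s μ₁ = Fline Ch.D s μ₂ := by
  classical
  let i₁ : C₁ → C₁ ⊕ₗ C₂ := fun c => toLex (Sum.inl c)
  let i₂ : C₂ → C₁ ⊕ₗ C₂ := fun c => toLex (Sum.inr c)
  have h₁ : ∀ a b, a < b ↔ i₁ a < i₁ b := fun a b => by simp [i₁, Sum.Lex.toLex_lt_toLex]
  have h₂ : ∀ a b, a < b ↔ i₂ a < i₂ b := fun a b => by simp [i₂, Sum.Lex.toLex_lt_toLex]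
  have e₁ : Fline Ch.D s (fun p => i₁ (μ₁ p)) = Fline Ch.D s μ₁ := by
    unfold Fline
    simp only [btw_map' h₁]
  have e₂ : Fline Ch.D s (fun p => i₂ (μ₂ p)) = Fline Ch.D s μ₂ := by
    unfold Fline
    simp only [btw_map' h₂]
  rw [← e₁, ← e₂]
  refine recolor_path hnn (fun μ => Fline Ch.D s μ) N hNvv ?_ (ptsD Ch.D) ?_ _ _
    (fun p => by simp only [he₁]) (fun p => by simp only [he₂]) ?_ ?_ ?_
  · intro μ μ' V a a' _ hR hd
    exact Fline_recolor Ch hs hR (fun f hf g hg hk q hq => hd _ q (hN f hf g hg hk q hq))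
  · intro μ μ' h
    unfold Fline
    refine sumL_congr (fun f hf => sumL_congr (fun g hg => ?_))
    have hm : ∀ {T : P × P}, T ∈ Ch.D → μ T.1 = μ' T.1 ∧ μ T.2 = μ' T.2 := by
      intro T hT
      refine ⟨h _ ?_, h _ ?_⟩ <;>
        · simp only [ptsD, List.mem_flatMap]
          exact ⟨T, hT, by simp⟩
    obtain ⟨_, a1⟩ := hm hf
    obtain ⟨b0, b1⟩ := hm hg
    rw [a1, b0, b1]
  · intro p q hpq hc
    exact ha₁ p q hpq (by simpa [i₁] using hc)
  · intro p q hpq hc
    exact ha₂ p q hpq (by simpa [i₂] using hc)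
  · intro p q hc
    simp [i₁, i₂] at hc

end Global

end BorsukT2
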