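import Crest.Agent.BorsukT2.FrameGeo
import Crest.Agent.BorsukT2.AltDec2

/-!
# The plane theorem: `N(T) + N(Tᶜ) = 1` on a tight plane
-/

set_option autoImplicit false

namespace BorsukT2

open Crest.Agent.S0069Lib.Chains
open Crest.Agent.S0069Lib

section Abstract
variable {P : Type*} {neg : P → P} {s : P → P → Z2}

/-- A permutation of the six colours moving `T` to `{0,2,4}`. -/
theorem exists_perm (T : Finset (Fin 6)) (hT : T.card = 3) :
    ∃ σ : Equiv.Perm (Fin 6), T.image σ = {0, 2, 4} ∧ Tᶜ.image σ = {1, 3, 5} := by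
  classical
  have hc : T.card = ({0, 2, 4} : Finset (Fin 6)).card := by rw [hT]; decide
  let e : {x // x ∈ T} ≃ {x // x ∈ ({0, 2, 4} : Finset (Fin 6))} := Finset.equivOfCardEq hc
  let σ : Equiv.Perm (Fin 6) := e.extendSubtype
  have h1 : ∀ x ∈ T, σ x ∈ ({0, 2, 4} : Finset (Fin 6)) := fun x hx => e.extendSubtype_mem x hx
  have h2 : ∀ x, x ∉ T → σ x ∉ ({0, 2, 4} : Finset (Fin 6)) :=
    fun x hx => e.extendSubtype_not_mem x hx
  refine ⟨σ, ?_, ?_⟩
  · apply Finset.eq_of_subset_of_card_le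
    · intro y hy
      obtain ⟨x, hx, rfl⟩ := Finset.mem_image.1 hy
      exact h1 x hx
    · rw [Finset.card_image_of_injective _ σ.injective, hT]; decide
  · apply Finset.eq_of_subset_of_card_le
    · intro y hy
      obtain ⟨x, hx, rfl⟩ := Finset.mem_image.1 hy
      have := h2 x (Finset.mem_compl.1 hx)
      revert this
      generalize σ x = z
      revert z
      decide
    · rw [Finset.card_image_of_injective _ σ.injective, Finset.card_compl, hT]; decide

theorem Ncount_perm (H : List (P × P × P)) (μ : P → Fin 6) (σ : Equiv.Perm (Fin 6))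
    (T : Finset (Fin 6)) :
    Ncount H (fun p => σ (μ p)) (T.image σ) = Ncount H μ T := by
  unfold Ncount
  refine sumL_congr (fun B _ => ?_)
  have e : ({σ (μ B.1), σ (μ B.2.1), σ (μ B.2.2)} : Finset (Fin 6)) =
      ({μ B.1, μ B.2.1, μ B.2.2} : Finset (Fin 6)).image σ := by
    simp [Finset.image_insert]
  rw [e]
  refine if_congr ?_ rfl rfl
  exact (Finset.image_injective σ.injective).eq_iff

/-- All even admissible labellings on six colours have the same complementary sums. -/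
theorem parity_six (Ch : PlaneChain P neg) (hs : SignData neg s) (hnn : ∀ p, neg (neg p) = p)
    {N : P → P → Prop} (G : PlaneGeo Ch s N) {C₀ : Type*} [LinearOrder C₀] (lab0 : P → C₀)
    (he0 : ∀ p, lab0 (neg p) = lab0 p) (ha0 : ∀ p q, N p q → lab0 p ≠ lab0 q)
    (μ : P → Fin 6) (he : ∀ p, μ (neg p) = μ p) (ha : ∀ p q, N p q → μ p ≠ μ q)
    (T : Finset (Fin 6)) (hT : T.card = 3) :
    Ncount Ch.H μ T + Ncount Ch.H μ Tᶜ = Fval Ch.H s lab0 := by
  obtain ⟨σ, h1, h2⟩ := exists_perm T hT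
  have he' : ∀ p, σ (μ (neg p)) = σ (μ p) := fun p => by rw [he]
  have ha' : ∀ p q, N p q → σ (μ p) ≠ σ (μ q) := fun p q hpq h => ha p q hpq (σ.injective h)
  have key := Fval_tight Ch hs hnn G (fun p => σ (μ p)) he' ha'
  rw [← h1, ← h2, Ncount_perm, Ncount_perm] at key
  rw [← key]
  exact Fval_eq Ch hs hnn N G.vv G.nA _ _ he' he0 ha' ha0

private theorem g2_edge (x y : Z2) (a b : Fin 6) :
    g2v a x b y + g2v a (x + 1) b (y + 1) = (if a = b then 0 else x + y) := by
  unfold g2v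
  rcases lt_trichotomy a b with h | h | h
  · simp only [h, if_true, h.ne]
    revert x y; decide
  · simp [h]
  · simp only [h.not_gt, if_false, h, if_true, h.ne']
    revert x y; decide

/-- The Fan count on a plane chain. -/
theorem fan_sum (Ch : PlaneChain P neg) (lab : P → Fin 6) (b : P → Z2)
    (hlab : ∀ e ∈ Ch.R, lab (neg e.1) = lab e.1 ∧ lab (neg e.2) = lab e.2)
    (hbit : ∀ e ∈ Ch.R, b (neg e.1) = b e.1 + 1 ∧ b (neg e.2) = b e.2 + 1)
    (hr : b (neg Ch.r) = b Ch.r + 1)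
    (hnc : ∀ e ∈ Ch.R, lab e.1 = lab e.2 → b e.1 = b e.2) :
    sumL Ch.H (fun A => g2v (lab A.2.1) (b A.2.1) (lab A.2.2) (b A.2.2) +
      g2v (lab A.1) (b A.1) (lab A.2.2) (b A.2.2) + g2v (lab A.1) (b A.1) (lab A.2.1) (b A.2.1)) = 1 := by
  have key := Ch.St2 (fun p q => g2v (lab p) (b p) (lab q) (b q))
  rw [key]
  have : sumL Ch.R (fun e => g2v (lab e.1) (b e.1) (lab e.2) (b e.2) +
      g2v (lab (neg e.1)) (b (neg e.1)) (lab (neg e.2)) (b (neg e.2))) =
      sumL Ch.R (fun e => b e.1 + b e.2) := by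
    refine sumL_congr (fun e he => ?_)
    rw [(hlab e he).1, (hlab e he).2, (hbit e he).1, (hbit e he).2, g2_edge]
    by_cases h : lab e.1 = lab e.2
    · rw [if_pos h, hnc e he h]
      exact (CharTwo.add_self_eq_zero _).symm
    · rw [if_neg h]
  rw [this, Ch.St1, hr]
  generalize b Ch.r = x
  revert x; decide

/-- The value of `F` on a reference labelling with forced signs. -/
theorem Fval_ref (Ch : PlaneChain P neg) (hs : SignData neg s) (hnn : ∀ p, neg (neg p) = p)
    {N : P → P → Prop} (G : PlaneGeo Ch s N) (lab : P → Fin 6) (b : P → Z2)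
    (he : ∀ p, lab (neg p) = lab p) (ha : ∀ p q, N p q → lab p ≠ lab q)
    (hbit : ∀ e ∈ Ch.R, b (neg e.1) = b e.1 + 1 ∧ b (neg e.2) = b e.2 + 1)
    (hr : b (neg Ch.r) = b Ch.r + 1)
    (hnc : ∀ e ∈ Ch.R, lab e.1 = lab e.2 → b e.1 = b e.2)
    (hcomp : ∀ A ∈ Ch.H, compat (lab A.1) (b A.1) (lab A.2.1) (b A.2.1) ∧
      compat (lab A.1) (b A.1) (lab A.2.2) (b A.2.2) ∧
      compat (lab A.2.1) (b A.2.1) (lab A.2.2) (b A.2.2))
    (hnot : ∀ T : Finset (Fin 6), T.card = 3 → Ncount Ch.H lab T = 1 → Ncount Ch.H lab Tᶜ = 1 → False) :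
    Fval Ch.H s lab = 1 := by
  by_contra hL
  have hL0 : Fval Ch.H s lab = 0 := by
    generalize Fval Ch.H s lab = x at hL
    revert x; decide
  have hzero : ∀ T : Finset (Fin 6), T.card = 3 → Ncount Ch.H lab T = 0 := by
    intro T hT
    have hp := parity_six Ch hs hnn G lab he ha lab he ha T hT
    rw [hL0] at hp
    by_contra hne
    have h1 : Ncount Ch.H lab T = 1 := by
      generalize Ncount Ch.H lab T = x at hne
      revert x; decide
    have h2 : Ncount Ch.H lab Tᶜ = 1 := by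
      rw [h1] at hp
      generalize Ncount Ch.H lab Tᶜ = x at hp
      revert x; decide
    exact hnot T hT h1 h2
  have hfan := fan_sum Ch lab b (fun e _ => ⟨he _, he _⟩) hbit hr hnc
  have h1 : sumL Ch.H (fun A => g2v (lab A.2.1) (b A.2.1) (lab A.2.2) (b A.2.2) +
      g2v (lab A.1) (b A.1) (lab A.2.2) (b A.2.2) + g2v (lab A.1) (b A.1) (lab A.2.1) (b A.2.1)) =
      sumL Ch.H (fun A => fanTab (lab A.1) (lab A.2.1) (lab A.2.2)) := by
    refine sumL_congr (fun A hA => ?_)
    obtain ⟨c1, c2, c3⟩ := hcomp A hA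
    exact fan_table _ _ _ _ _ _ c1 c2 c3
  rw [h1] at hfan
  have h2 : sumL Ch.H (fun A => fanTab (lab A.1) (lab A.2.1) (lab A.2.2)) =
      sumL triples (fun t => sumL Ch.H (fun A =>
        if ({lab A.1, lab A.2.1, lab A.2.2} : Finset (Fin 6)) = {t.1, t.2.1, t.2.2} then
          sig3 t.1 t.2.1 * sig3 t.2.1 t.2.2 else 0)) := by
    rw [sumL_comm]
    rfl
  rw [h2] at hfan
  have h3 : sumL triples (fun t => sumL Ch.H (fun A =>
        if ({lab A.1, lab A.2.1, lab A.2.2} : Finset (Fin 6)) = {t.1, t.2.1, t.2.2} then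
          sig3 t.1 t.2.1 * sig3 t.2.1 t.2.2 else 0)) = 0 := by
    refine sumL_eq_zero (fun t ht => ?_)
    have := hzero _ (triples_card t ht)
    have e : sumL Ch.H (fun A =>
        if ({lab A.1, lab A.2.1, lab A.2.2} : Finset (Fin 6)) = {t.1, t.2.1, t.2.2} then
          sig3 t.1 t.2.1 * sig3 t.2.1 t.2.2 else 0) =
        sig3 t.1 t.2.1 * sig3 t.2.1 t.2.2 * Ncount Ch.H lab {t.1, t.2.1, t.2.2} := by
      unfold Ncount
      rw [mul_sumL]
      refine sumL_congr (fun A _ => ?_)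
      split_ifs <;> simp
    rw [e, this, mul_zero]
  rw [h3] at hfan
  exact zero_ne_one hfan

end Abstract

end BorsukT2
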