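import Mathlib
import Crest.Agent.BorsukT2.Alt

/-!
# The reference labelling of the projective plane by six caps

`UZ i` are six integer vectors of squared length `89` (rational approximations of the icosahedron axes).
`lab3 x` is the index maximising `|⟨u_i, x⟩|`, `bit3 x` the sign of the maximum.
-/

set_option autoImplicit false

namespace BorsukT2

/-- Six integer axes. -/
def UZ : Fin 6 → Fin 3 → ℤ :=
  ![![0, 5, 8], ![0, -5, 8], ![5, 8, 0], ![-5, 8, 0], ![8, 0, 5], ![8, 0, -5]]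

/-- The linear form of an axis. -/
def Lf (i : Fin 6) (x : Fin 3 → ℝ) : ℝ := ∑ j, (UZ i j : ℝ) * x j

/-- `i` maximises `|L_i x|`. -/
def Mx (i : Fin 6) (x : Fin 3 → ℝ) : Prop := ∀ j, |Lf j x| ≤ |Lf i x|

open Classical in
/-- The label of a point. -/
noncomputable def lab3 (x : Fin 3 → ℝ) : Fin 6 :=
  if Mx 0 x then 0 else if Mx 1 x then 1 else if Mx 2 x then 2 else if Mx 3 x then 3
    else if Mx 4 x then 4 else 5

/-- The sign of the maximal form. -/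
noncomputable def bit3 (x : Fin 3 → ℝ) : Z2 := if Lf (lab3 x) x < 0 then 1 else 0

/-- The sign of the inner product of two axes. -/
def sig3 (i j : Fin 6) : Z2 := if (∑ k, UZ i k * UZ j k) < 0 then 1 else 0

theorem Lf_neg (i : Fin 6) (x : Fin 3 → ℝ) : Lf i (-x) = - Lf i x := by
  simp [Lf, Finset.sum_neg_distrib]

theorem Mx_neg (i : Fin 6) (x : Fin 3 → ℝ) : Mx i (-x) ↔ Mx i x := by
  simp [Mx, Lf_neg]

theorem lab3_neg (x : Fin 3 → ℝ) : lab3 (-x) = lab3 x := by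
  unfold lab3
  by_cases h0 : Mx 0 x
  · rw [if_pos ((Mx_neg 0 x).2 h0), if_pos h0]
  rw [if_neg (fun h => h0 ((Mx_neg 0 x).1 h)), if_neg h0]
  by_cases h1 : Mx 1 x
  · rw [if_pos ((Mx_neg 1 x).2 h1), if_pos h1]
  rw [if_neg (fun h => h1 ((Mx_neg 1 x).1 h)), if_neg h1]
  by_cases h2 : Mx 2 x
  · rw [if_pos ((Mx_neg 2 x).2 h2), if_pos h2]
  rw [if_neg (fun h => h2 ((Mx_neg 2 x).1 h)), if_neg h2]
  by_cases h3 : Mx 3 x
  · rw [if_pos ((Mx_neg 3 x).2 h3), if_pos h3]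
  rw [if_neg (fun h => h3 ((Mx_neg 3 x).1 h)), if_neg h3]
  by_cases h4 : Mx 4 x
  · rw [if_pos ((Mx_neg 4 x).2 h4), if_pos h4]
  rw [if_neg (fun h => h4 ((Mx_neg 4 x).1 h)), if_neg h4]

theorem exists_Mx (x : Fin 3 → ℝ) : ∃ i, Mx i x := by
  obtain ⟨i, -, hi⟩ := Finset.exists_max_image (Finset.univ : Finset (Fin 6)) (fun j => |Lf j x|)
    ⟨0, Finset.mem_univ _⟩
  exact ⟨i, fun j => hi j (Finset.mem_univ _)⟩

theorem lab3_spec (x : Fin 3 → ℝ) : Mx (lab3 x) x := by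
  unfold lab3
  split_ifs with h0 h1 h2 h3 h4
  · exact h0
  · exact h1
  · exact h2
  · exact h3
  · exact h4
  · obtain ⟨i, hi⟩ := exists_Mx x
    fin_cases i
    · exact absurd hi h0
    · exact absurd hi h1
    · exact absurd hi h2
    · exact absurd hi h3
    · exact absurd hi h4
    · exact hi

theorem polytope_bound {a b c : ℝ} (ha : 0 ≤ a) (hb : 0 ≤ b) (hc : 0 ≤ c)
    (h1 : 5 * b + 8 * c < 7) (h2 : 5 * a + 8 * b < 7) (h3 : 8 * a + 5 * c < 7) :
    a ^ 2 + b ^ 2 + c ^ 2 < 1 := by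
  nlinarith [mul_nonneg ha (sub_nonneg.2 h3.le), mul_nonneg hb (sub_nonneg.2 h2.le),
    mul_nonneg hc (sub_nonneg.2 h1.le), sq_nonneg (a + b + c - 7 / 5)]

theorem Lf_expand (x : Fin 3 → ℝ) :
    Lf 0 x = 5 * x 1 + 8 * x 2 ∧ Lf 1 x = -5 * x 1 + 8 * x 2 ∧ Lf 2 x = 5 * x 0 + 8 * x 1 ∧
    Lf 3 x = -5 * x 0 + 8 * x 1 ∧ Lf 4 x = 8 * x 0 + 5 * x 2 ∧ Lf 5 x = 8 * x 0 + -5 * x 2 := by
  simp [Lf, UZ, Fin.sum_univ_three]

theorem abs_add_abs_lt {p q M : ℝ} (h1 : |p + q| < M) (h2 : |-p + q| < M) : |p| + |q| < M := by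
  have a1 := abs_lt.1 h1
  have a2 := abs_lt.1 h2
  rcases abs_cases p with ⟨hp, _⟩ | ⟨hp, _⟩ <;> rcases abs_cases q with ⟨hq, _⟩ | ⟨hq, _⟩ <;>
    rw [hp, hq] <;> linarith [a1.1, a1.2, a2.1, a2.2]

/-- The maximal form is large on unit vectors. -/
theorem lf_large (x : Fin 3 → ℝ) (hx : ∑ j, x j ^ 2 = 1) : 49 ≤ (Lf (lab3 x) x) ^ 2 := by
  by_contra hcon
  push Not at hcon
  have hM := lab3_spec x
  set M := |Lf (lab3 x) x| with hMdef
  have hMlt : M < 7 := by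
    have : M ^ 2 < 7 ^ 2 := by
      rw [hMdef, sq_abs]; linarith
    exact lt_of_pow_lt_pow_left₀ 2 (by norm_num) this
  obtain ⟨e0, e1, e2, e3, e4, e5⟩ := Lf_expand x
  have l0 : |5 * x 1 + 8 * x 2| < 7 := by rw [← e0]; exact lt_of_le_of_lt (hM 0) hMlt
  have l1 : |-5 * x 1 + 8 * x 2| < 7 := by rw [← e1]; exact lt_of_le_of_lt (hM 1) hMlt
  have l2 : |5 * x 0 + 8 * x 1| < 7 := by rw [← e2]; exact lt_of_le_of_lt (hM 2) hMlt
  have l3 : |-5 * x 0 + 8 * x 1| < 7 := by rw [← e3]; exact lt_of_le_of_lt (hM 3) hMlt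
  have l4 : |8 * x 0 + 5 * x 2| < 7 := by rw [← e4]; exact lt_of_le_of_lt (hM 4) hMlt
  have l5 : |8 * x 0 + -5 * x 2| < 7 := by rw [← e5]; exact lt_of_le_of_lt (hM 5) hMlt
  have h1 : 5 * |x 1| + 8 * |x 2| < 7 := by
    have := abs_add_abs_lt (p := 5 * x 1) (q := 8 * x 2) l0 (by convert l1 using 2; ring)
    rwa [abs_mul, abs_mul, abs_of_pos (by norm_num : (0 : ℝ) < 5),
      abs_of_pos (by norm_num : (0 : ℝ) < 8)] at this
  have h2 : 5 * |x 0| + 8 * |x 1| < 7 := by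
    have := abs_add_abs_lt (p := 5 * x 0) (q := 8 * x 1) l2 (by convert l3 using 2; ring)
    rwa [abs_mul, abs_mul, abs_of_pos (by norm_num : (0 : ℝ) < 5),
      abs_of_pos (by norm_num : (0 : ℝ) < 8)] at this
  have h3 : 8 * |x 0| + 5 * |x 2| < 7 := by
    have := abs_add_abs_lt (p := 5 * x 2) (q := 8 * x 0)
      (by convert l4 using 2; ring) (by convert l5 using 2; ring)
    rw [abs_mul, abs_mul, abs_of_pos (by norm_num : (0 : ℝ) < 5),
      abs_of_pos (by norm_num : (0 : ℝ) < 8)] at this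
    linarith
  have key := polytope_bound (abs_nonneg (x 0)) (abs_nonneg (x 1)) (abs_nonneg (x 2)) h1 h2 h3
  rw [sq_abs, sq_abs, sq_abs] at key
  rw [Fin.sum_univ_three] at hx
  linarith

theorem Lf_ne_zero (x : Fin 3 → ℝ) (hx : ∑ j, x j ^ 2 = 1) : Lf (lab3 x) x ≠ 0 := by
  intro h
  have := lf_large x hx
  rw [h] at this
  norm_num at this

theorem bit3_neg (x : Fin 3 → ℝ) (hx : ∑ j, x j ^ 2 = 1) : bit3 (-x) = bit3 x + 1 := by
  unfold bit3
  rw [lab3_neg, Lf_neg]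
  have hne := Lf_ne_zero x hx
  by_cases h : Lf (lab3 x) x < 0
  · have h' : ¬ - Lf (lab3 x) x < 0 := by linarith
    rw [if_neg h', if_pos h]
    decide
  · have h' : - Lf (lab3 x) x < 0 := by
      have : 0 < Lf (lab3 x) x := lt_of_le_of_ne (not_lt.1 h) (Ne.symm hne)
      linarith
    rw [if_pos h', if_neg h]
    decide

theorem UZ_sq (i : Fin 6) : ∑ k, (UZ i k : ℝ) ^ 2 = 89 := by
  fin_cases i <;> simp [UZ, Fin.sum_univ_three] <;> norm_num

/-- Cauchy–Schwarz for the forms. -/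
theorem Lf_sub_sq (i : Fin 6) (x y : Fin 3 → ℝ) :
    (Lf i x - Lf i y) ^ 2 ≤ 89 * ∑ k, (x k - y k) ^ 2 := by
  have e : Lf i x - Lf i y = ∑ k, (UZ i k : ℝ) * (x k - y k) := by
    unfold Lf
    rw [← Finset.sum_sub_distrib]
    exact Finset.sum_congr rfl fun k _ => by ring
  rw [e, ← UZ_sq i]
  exact Finset.sum_mul_sq_le_sq_mul_sq _ _ _

/-- The projection form of Cauchy–Schwarz. -/
theorem proj_cs (x y u : Fin 3 → ℝ) (hx : ∑ j, x j ^ 2 = 1) (hy : ∑ j, y j ^ 2 = 1)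
    (hu : ∑ j, u j ^ 2 = 89) :
    (89 * (∑ j, x j * y j) - (∑ j, u j * x j) * (∑ j, u j * y j)) ^ 2
      ≤ (89 - (∑ j, u j * x j) ^ 2) * (89 - (∑ j, u j * y j) ^ 2) := by
  set a := ∑ j, u j * x j with ha
  set b := ∑ j, u j * y j with hb
  set c := ∑ j, x j * y j with hc
  have cs := Finset.sum_mul_sq_le_sq_mul_sq Finset.univ
    (fun j => 89 * x j - a * u j) (fun j => 89 * y j - b * u j)
  have e1 : ∑ j, (89 * x j - a * u j) * (89 * y j - b * u j)
      = 89 * (89 * c - a * b) := by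
    have : ∀ j, (89 * x j - a * u j) * (89 * y j - b * u j)
        = 89 * 89 * (x j * y j) - 89 * b * (u j * x j) - 89 * a * (u j * y j)
          + a * b * u j ^ 2 := fun j => by ring
    simp only [this, Finset.sum_add_distrib, Finset.sum_sub_distrib, ← Finset.mul_sum, ← hc, ← ha,
      ← hb, hu]
    ring
  have e2 : ∑ j, (89 * x j - a * u j) ^ 2 = 89 * (89 - a ^ 2) := by
    have : ∀ j, (89 * x j - a * u j) ^ 2
        = 89 * 89 * x j ^ 2 - 2 * 89 * a * (u j * x j) + a ^ 2 * u j ^ 2 := fun j => by ring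
    simp only [this, Finset.sum_add_distrib, Finset.sum_sub_distrib, ← Finset.mul_sum, ← ha, hu, hx]
    ring
  have e3 : ∑ j, (89 * y j - b * u j) ^ 2 = 89 * (89 - b ^ 2) := by
    have : ∀ j, (89 * y j - b * u j) ^ 2
        = 89 * 89 * y j ^ 2 - 2 * 89 * b * (u j * y j) + b ^ 2 * u j ^ 2 := fun j => by ring
    simp only [this, Finset.sum_add_distrib, Finset.sum_sub_distrib, ← Finset.mul_sum, ← hb, hu, hy]
    ring
  rw [e1, e2, e3] at cs
  nlinarith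

/-- A form is bounded on unit vectors. -/
theorem Lf_sq_le (i : Fin 6) (x : Fin 3 → ℝ) (hx : ∑ j, x j ^ 2 = 1) : (Lf i x) ^ 2 ≤ 89 := by
  have := Finset.sum_mul_sq_le_sq_mul_sq Finset.univ (fun k => (UZ i k : ℝ)) x
  rw [UZ_sq, hx, mul_one] at this
  exact this

theorem le_abs_of_sq {a : ℝ} {m : ℝ} (hm : 0 ≤ m) (h : m ^ 2 ≤ a ^ 2) : m ≤ |a| := by
  rw [← sq_abs a] at h
  exact (sq_le_sq₀ hm (abs_nonneg a)).1 h

/-- Two unit vectors with the same label are far from orthogonal. -/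
theorem margin3 (x y : Fin 3 → ℝ) (hx : ∑ j, x j ^ 2 = 1) (hy : ∑ j, y j ^ 2 = 1)
    (h : lab3 x = lab3 y) : 1 / 10 ≤ |∑ j, x j * y j| := by
  set i := lab3 x with hi
  have hA : 49 ≤ (Lf i x) ^ 2 := lf_large x hx
  have hB : 49 ≤ (Lf i y) ^ 2 := by
    have := lf_large y hy
    rwa [← h] at this
  have hA' := Lf_sq_le i x hx
  have hB' := Lf_sq_le i y hy
  have hcs := proj_cs x y (fun k => (UZ i k : ℝ)) hx hy (UZ_sq i)
  change (89 * (∑ j, x j * y j) - (Lf i x) * (Lf i y)) ^ 2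
      ≤ (89 - (Lf i x) ^ 2) * (89 - (Lf i y) ^ 2) at hcs
  set a := Lf i x
  set b := Lf i y
  set c := ∑ j, x j * y j with hc
  have h1 : (7 : ℝ) ≤ |a| := le_abs_of_sq (by norm_num) (by norm_num; linarith)
  have h2 : (7 : ℝ) ≤ |b| := le_abs_of_sq (by norm_num) (by norm_num; linarith)
  have hab : 49 ≤ |a * b| := by
    rw [abs_mul]; nlinarith
  have hbound : (89 * c - a * b) ^ 2 ≤ 40 ^ 2 := by
    refine hcs.trans ?_
    have p1 : 0 ≤ 89 - a ^ 2 := by linarith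
    have p2 : 0 ≤ 89 - b ^ 2 := by linarith
    have q1 : 89 - a ^ 2 ≤ 40 := by linarith
    have q2 : 89 - b ^ 2 ≤ 40 := by linarith
    nlinarith
  have habs : |89 * c - a * b| ≤ 40 := abs_le_of_sq_le_sq hbound (by norm_num)
  have htri : |a * b| ≤ |89 * c| + |89 * c - a * b| := by
    have := abs_sub (89 * c) (89 * c - a * b)
    have e : 89 * c - (89 * c - a * b) = a * b := by ring
    rwa [e] at this
  have e : |89 * c| = 89 * |c| := by
    rw [abs_mul, abs_of_pos (by norm_num : (0 : ℝ) < 89)]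
  rw [e] at htri
  linarith

theorem bit3_eq_of_sign {x y : Fin 3 → ℝ} (h : Lf (lab3 x) x < 0 ↔ Lf (lab3 y) y < 0) :
    bit3 x = bit3 y := by
  unfold bit3
  by_cases hx : Lf (lab3 x) x < 0
  · rw [if_pos hx, if_pos (h.1 hx)]
  · rw [if_neg hx, if_neg (fun hy => hx (h.2 hy))]

/-- Same label and close: same sign. -/
theorem close_same_bit (x y : Fin 3 → ℝ) (hx : ∑ j, x j ^ 2 = 1) (hy : ∑ j, y j ^ 2 = 1)
    (hc : ∑ j, (x j - y j) ^ 2 ≤ (1 / 100) ^ 2) (h : lab3 x = lab3 y) : bit3 x = bit3 y := by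
  apply bit3_eq_of_sign
  rw [← h]
  set i := lab3 x with hi
  have hA : 49 ≤ (Lf i x) ^ 2 := lf_large x hx
  have hB : 49 ≤ (Lf i y) ^ 2 := by
    have := lf_large y hy
    rwa [← h] at this
  have hd : (Lf i x - Lf i y) ^ 2 ≤ 1 := by
    have := Lf_sub_sq i x y
    nlinarith
  have hd' := abs_le.1 (abs_le_of_sq_le_sq (by rw [one_pow]; exact hd) (by norm_num) :
    |Lf i x - Lf i y| ≤ 1)
  constructor
  · intro ha
    nlinarith [hd'.1, hd'.2]
  · intro hb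
    nlinarith [hd'.1, hd'.2]

/-- The Gram determinant of three vectors in `ℝ³` is a square. -/
theorem gram_nonneg (x u v : Fin 3 → ℝ) :
    0 ≤ (∑ k, x k ^ 2) * (∑ k, u k ^ 2) * (∑ k, v k ^ 2)
      + 2 * (∑ k, u k * x k) * (∑ k, u k * v k) * (∑ k, v k * x k)
      - (∑ k, x k ^ 2) * (∑ k, u k * v k) ^ 2 - (∑ k, u k ^ 2) * (∑ k, v k * x k) ^ 2
      - (∑ k, v k ^ 2) * (∑ k, u k * x k) ^ 2 := by
  have key : (∑ k, x k ^ 2) * (∑ k, u k ^ 2) * (∑ k, v k ^ 2)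
      + 2 * (∑ k, u k * x k) * (∑ k, u k * v k) * (∑ k, v k * x k)
      - (∑ k, x k ^ 2) * (∑ k, u k * v k) ^ 2 - (∑ k, u k ^ 2) * (∑ k, v k * x k) ^ 2
      - (∑ k, v k ^ 2) * (∑ k, u k * x k) ^ 2
      = (x 0 * (u 1 * v 2 - u 2 * v 1) - x 1 * (u 0 * v 2 - u 2 * v 0)
          + x 2 * (u 0 * v 1 - u 1 * v 0)) ^ 2 := by
    simp only [Fin.sum_univ_three]
    ring
  rw [key]
  exact sq_nonneg _

/-- The sign rule in `ZMod 2`. -/
theorem sign_rule {A B W : ℝ} (h : 0 < W * (A * B)) :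
    ((if A < 0 then (1 : Z2) else 0) + (if B < 0 then 1 else 0)) = if W < 0 then 1 else 0 := by
  have hW : W ≠ 0 := by
    rintro rfl
    simp at h
  have hA : A ≠ 0 := by
    rintro rfl
    simp at h
  have hB : B ≠ 0 := by
    rintro rfl
    simp at h
  rcases lt_or_gt_of_ne hA with a | a <;> rcases lt_or_gt_of_ne hB with b | b <;>
    rcases lt_or_gt_of_ne hW with c | c
  · exfalso
    have := mul_neg_of_neg_of_pos c (mul_pos_of_neg_of_neg a b)
    linarith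
  · rw [if_pos a, if_pos b, if_neg (not_lt.2 c.le)]; decide
  · rw [if_pos a, if_neg (not_lt.2 b.le), if_pos c]; decide
  · exfalso
    have := mul_neg_of_pos_of_neg c (mul_neg_of_neg_of_pos a b)
    linarith
  · rw [if_neg (not_lt.2 a.le), if_pos b, if_pos c]; decide
  · exfalso
    have := mul_neg_of_pos_of_neg c (mul_neg_of_pos_of_neg a b)
    linarith
  · exfalso
    have := mul_neg_of_neg_of_pos c (mul_pos a b)
    linarith
  · rw [if_neg (not_lt.2 a.le), if_neg (not_lt.2 b.le), if_neg (not_lt.2 c.le)]; decide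

/-- Different labels and close: the signs are related by the sign of the inner product of the axes. -/
theorem close_pair_sign (x y : Fin 3 → ℝ) (hx : ∑ j, x j ^ 2 = 1) (hy : ∑ j, y j ^ 2 = 1)
    (hc : ∑ j, (x j - y j) ^ 2 ≤ (1 / 100) ^ 2) (_h : lab3 x ≠ lab3 y) :
    bit3 x + bit3 y = sig3 (lab3 x) (lab3 y) := by
  set i := lab3 x with hi
  set j := lab3 y with hj
  have hA : 49 ≤ (Lf i x) ^ 2 := lf_large x hx
  have hb : 49 ≤ (Lf j y) ^ 2 := lf_large y hy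
  have hd : (Lf j x - Lf j y) ^ 2 ≤ (1 / 10) ^ 2 := by
    have := Lf_sub_sq j x y
    nlinarith
  have hd' := abs_le.1 (abs_le_of_sq_le_sq hd (by norm_num) : |Lf j x - Lf j y| ≤ 1 / 10)
  -- the Gram inequality
  have hW : ((∑ k, UZ i k * UZ j k : ℤ) : ℝ) = ∑ k, (UZ i k : ℝ) * (UZ j k : ℝ) := by
    push_cast; rfl
  have hg := gram_nonneg x (fun k => (UZ i k : ℝ)) (fun k => (UZ j k : ℝ))
  simp only [UZ_sq, hx] at hg
  change 0 ≤ 1 * 89 * 89 + 2 * (Lf i x) * (∑ k, (UZ i k : ℝ) * (UZ j k : ℝ)) * (Lf j x)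
      - 1 * (∑ k, (UZ i k : ℝ) * (UZ j k : ℝ)) ^ 2 - 89 * (Lf j x) ^ 2 - 89 * (Lf i x) ^ 2 at hg
  rw [← hW] at hg
  set W : ℤ := ∑ k, UZ i k * UZ j k with hWdef
  set A := Lf i x with hAdef
  set B := Lf j x with hBdef
  set b := Lf j y with hbdef
  have hB2 : 47 ≤ B ^ 2 := by
    have h7 : (7 : ℝ) ≤ |b| := le_abs_of_sq (by norm_num) (by norm_num; linarith)
    rcases abs_cases b with ⟨h1, h2⟩ | ⟨h1, h2⟩
    · have : 6 + 9 / 10 ≤ B := by linarith [hd'.1]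
      nlinarith
    · have : B ≤ -(6 + 9 / 10) := by linarith [hd'.2]
      nlinarith
  have hpos : 0 < (W : ℝ) * (A * B) := by
    by_contra hn
    have hn' : (W : ℝ) * (A * B) ≤ 0 := not_lt.1 hn
    nlinarith [sq_nonneg (W : ℝ)]
  -- the signs of `b` and `B` agree
  have hsb : b < 0 ↔ B < 0 := by
    constructor
    · intro h0
      have : b ≤ -7 := by nlinarith
      linarith [hd'.2]
    · intro h0
      have h1 : B ≤ -(6 + 9 / 10) ∨ 6 + 9 / 10 ≤ B := by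
        by_contra hh
        push Not at hh
        nlinarith [hh.1, hh.2]
      rcases h1 with h1 | h1
      · linarith [hd'.1]
      · linarith
  unfold bit3 sig3
  rw [← hi, ← hj, ← hAdef, ← hbdef, ← hWdef]
  rw [if_congr hsb rfl rfl, if_congr (Int.cast_lt_zero (R := ℝ) (n := W)).symm rfl rfl]
  exact sign_rule hpos

end BorsukT2
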