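import Crest.Agent.BorsukT2.Path
import Crest.Agent.BorsukT2.AltDec

/-!
# Evaluation of `F'` and `F` on tight labellings
-/

set_option autoImplicit false

namespace BorsukT2

/-- Indicator of the `{0,2}` edge among three ordered colours. -/
def edge02 (a b : Fin 3) : Z2 := if (a = 0 ∧ b = 2) ∨ (a = 2 ∧ b = 0) then 1 else 0

private theorem btw_fin3 : ∀ x a b : Fin 3, x ≠ a → x ≠ b → Btw x a b = edge02 a b := by decide

section LineLevel
variable {P : Type*} {neg : P → P} {s : P → P → Z2}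

/-- The relevant pairs of a list of edges. -/
def RelD (D : List (P × P)) (s : P → P → Z2) (p q : P) : Prop :=
  ∃ f ∈ D, ∃ g ∈ D, kap' s f g = 1 ∧ p = f.2 ∧ q ∈ [g.1, g.2]

/-- Reference labelling of a line chain. -/
structure LineRef (D : List (P × P)) (s : P → P → Z2) (neg : P → P) where
  ν : P → Fin 3
  e' : P
  even : ∀ p, ν (neg p) = ν p
  adm : ∀ f ∈ D, ∀ g ∈ D, kap' s f g = 1 → ∀ q ∈ [g.1, g.2], ν f.2 ≠ ν q
  cross : ∀ g ∈ D, edge02 (ν g.1) (ν g.2) = s g.1 e' + s g.2 e'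

theorem Fline_tight3 (Ch : LineChain P neg) (hs : SignData neg s) (μ : P → Fin 3)
    (hadm : ∀ f ∈ Ch.D, ∀ g ∈ Ch.D, kap' s f g = 1 → ∀ q ∈ [g.1, g.2], μ f.2 ≠ μ q) :
    Fline Ch.D s μ = sumL Ch.D (fun g => edge02 (μ g.1) (μ g.2)) := by
  unfold Fline
  rw [sumL_comm]
  refine sumL_congr (fun g hg => ?_)
  have h1 : ∀ f ∈ Ch.D, kap' s f g * Btw (μ f.2) (μ g.1) (μ g.2) =
      (s f.1 g.1 + s f.2 g.1) * edge02 (μ g.1) (μ g.2) := by
    intro f hf
    have hk : kap' s f g = 0 ∨ kap' s f g = 1 := by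
      generalize kap' s f g = x; revert x; decide
    rcases hk with hk | hk
    · have : s f.1 g.1 + s f.2 g.1 = 0 := hk
      rw [hk, this]; simp
    · have : s f.1 g.1 + s f.2 g.1 = 1 := hk
      rw [hk, this, btw_fin3 _ _ _ (hadm f hf g hg hk _ (by simp)) (hadm f hf g hg hk _ (by simp))]
  rw [sumL_congr h1, ← sumL_mul, Ch.Od (fun p => s p g.1) (fun p => hs.neg_left p g.1), one_mul]

theorem Fline_ref (Ch : LineChain P neg) (hs : SignData neg s) (r : LineRef Ch.D s neg) :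
    Fline Ch.D s r.ν = 1 := by
  rw [Fline_tight3 Ch hs r.ν r.adm, sumL_congr r.cross]
  exact Ch.Od (fun p => s p r.e') (fun p => hs.neg_left p r.e')

/-- **The line lemma**: `F' = 1` for every admissible labelling. -/
theorem Fline_one {C : Type*} [LinearOrder C] (Ch : LineChain P neg) (hs : SignData neg s)
    (hnn : ∀ p, neg (neg p) = p)
    (hvv : ∀ f ∈ Ch.D, ∀ g ∈ Ch.D, kap' s f g = 1 → ∀ q ∈ [g.1, g.2], f.2 ≠ q ∧ f.2 ≠ neg q)
    (r : LineRef Ch.D s neg) (μ : P → C) (he : ∀ p, μ (neg p) = μ p)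
    (hadm : ∀ f ∈ Ch.D, ∀ g ∈ Ch.D, kap' s f g = 1 → ∀ q ∈ [g.1, g.2], μ f.2 ≠ μ q) :
    Fline Ch.D s μ = 1 := by
  rw [Fline_eq Ch hs hnn (RelD Ch.D s) ?_ ?_ μ r.ν he r.even ?_ ?_]
  · exact Fline_ref Ch hs r
  · rintro p q ⟨f, hf, g, hg, hk, rfl, hq⟩
    exact hvv f hf g hg hk q hq
  · intro f hf g hg hk q hq
    exact ⟨f, hf, g, hg, hk, rfl, hq⟩
  · rintro p q ⟨f, hf, g, hg, hk, rfl, hq⟩
    exact hadm f hf g hg hk q hq
  · rintro p q ⟨f, hf, g, hg, hk, rfl, hq⟩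
    exact r.adm f hf g hg hk q hq

/-- **Line coefficients**: if a line chain carries exactly three colours, every pair of them has odd
coefficient. -/
theorem line_coef {C : Type*} [DecidableEq C] (Ch : LineChain P neg) (hs : SignData neg s)
    (hnn : ∀ p, neg (neg p) = p)
    (hvv : ∀ f ∈ Ch.D, ∀ g ∈ Ch.D, kap' s f g = 1 → ∀ q ∈ [g.1, g.2], f.2 ≠ q ∧ f.2 ≠ neg q)
    (r : LineRef Ch.D s neg) (μ : P → C) (he : ∀ p, μ (neg p) = μ p) (x y z : C)
    (hxy : x ≠ y) (hxz : x ≠ z) (hyz : y ≠ z)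
    (hlab : ∀ f ∈ Ch.D, (μ f.1 = x ∨ μ f.1 = y ∨ μ f.1 = z) ∧ (μ f.2 = x ∨ μ f.2 = y ∨ μ f.2 = z))
    (hadm : ∀ f ∈ Ch.D, ∀ g ∈ Ch.D, kap' s f g = 1 → ∀ q ∈ [g.1, g.2], μ f.2 ≠ μ q) :
    sumL Ch.D (fun g => edgeInd x z (μ g.1) (μ g.2)) = 1 := by
  let π : C → Fin 3 := fun c => if c = x then 0 else if c = y then 1 else 2
  have hπx : π x = 0 := by simp [π]
  have hπy : π y = 1 := by simp [π, hxy.symm]
  have hπz : π z = 2 := by simp [π, hxz.symm, hyz.symm]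
  have hinj : ∀ a b : C, (a = x ∨ a = y ∨ a = z) → (b = x ∨ b = y ∨ b = z) → a ≠ b → π a ≠ π b := by
    rintro a b (rfl | rfl | rfl) (rfl | rfl | rfl) hab <;>
      first
        | exact absurd rfl hab
        | (simp only [hπx, hπy, hπz]; decide)
  have hedge : ∀ a b : C, (a = x ∨ a = y ∨ a = z) → (b = x ∨ b = y ∨ b = z) →
      edge02 (π a) (π b) = edgeInd x z a b := by
    rintro a b (rfl | rfl | rfl) (rfl | rfl | rfl) <;>
      simp [hπx, hπy, hπz, edgeInd, edge02, hxy, hxz, hyz, hxy.symm, hxz.symm, hyz.symm]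
  have hF := Fline_one Ch hs hnn hvv r (fun p => π (μ p)) (fun p => by simp only [he])
    (fun f hf g hg hk q hq => by
      refine hinj _ _ (hlab f hf).2 ?_ (hadm f hf g hg hk q hq)
      simp only [List.mem_cons, List.not_mem_nil, or_false] at hq
      rcases hq with rfl | rfl
      · exact (hlab g hg).1
      · exact (hlab g hg).2)
  rw [Fline_tight3 Ch hs (fun p => π (μ p)) (fun f hf g hg hk q hq => by
      refine hinj _ _ (hlab f hf).2 ?_ (hadm f hf g hg hk q hq)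
      simp only [List.mem_cons, List.not_mem_nil, or_false] at hq
      rcases hq with rfl | rfl
      · exact (hlab g hg).1
      · exact (hlab g hg).2)] at hF
  rw [← hF]
  exact sumL_congr (fun g hg => (hedge _ _ (hlab g hg).1 (hlab g hg).2).symm)

/-- A line chain carries three distinct colours. -/
theorem line_three {C : Type*} [LinearOrder C] (Ch : LineChain P neg) (hs : SignData neg s)
    (hnn : ∀ p, neg (neg p) = p)
    (hvv : ∀ f ∈ Ch.D, ∀ g ∈ Ch.D, kap' s f g = 1 → ∀ q ∈ [g.1, g.2], f.2 ≠ q ∧ f.2 ≠ neg q)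
    (r : LineRef Ch.D s neg) (μ : P → C) (he : ∀ p, μ (neg p) = μ p)
    (hadm : ∀ f ∈ Ch.D, ∀ g ∈ Ch.D, kap' s f g = 1 → ∀ q ∈ [g.1, g.2], μ f.2 ≠ μ q) :
    ∃ f ∈ Ch.D, ∃ g ∈ Ch.D, μ f.2 ≠ μ g.1 ∧ μ f.2 ≠ μ g.2 ∧ μ g.1 ≠ μ g.2 := by
  by_contra hcon
  push Not at hcon
  have hF := Fline_one Ch hs hnn hvv r μ he hadm
  have : Fline Ch.D s μ = 0 := by
    unfold Fline
    refine sumL_eq_zero (fun f hf => sumL_eq_zero (fun g hg => ?_))
    have hb : Btw (μ f.2) (μ g.1) (μ g.2) = 0 := by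
      unfold Btw
      rw [if_neg]
      unfold BtwP
      rintro (⟨h1, h2⟩ | ⟨h1, h2⟩)
      · exact absurd (hcon f hf g hg h1.ne' h2.ne) (ne_of_lt (h1.trans h2))
      · exact absurd (hcon f hf g hg h2.ne h1.ne') (ne_of_gt (h1.trans h2))
    rw [hb, mul_zero]
  rw [this] at hF
  exact zero_ne_one hF

end LineLevel

section PlaneLevel
variable {P : Type*} {neg : P → P} {s : P → P → Z2}

/-- Number (mod 2) of triangles of `H` whose label set is `T`. -/
def Ncount {C : Type*} [DecidableEq C] (H : List (P × P × P)) (μ : P → C) (T : Finset C) : Z2 :=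
  sumL H (fun B => if ({μ B.1, μ B.2.1, μ B.2.2} : Finset C) = T then 1 else 0)

/-- Abstract geometric hypotheses of the plane level. -/
structure PlaneGeo (Ch : PlaneChain P neg) (s : P → P → Z2) (N : P → P → Prop) where
  vv : ∀ p q, N p q → p ≠ q ∧ p ≠ neg q
  nA : ∀ A ∈ Ch.H, ∀ B ∈ Ch.H, kap s A B = 1 →
    ∀ p ∈ [A.2.1, A.2.2], ∀ q ∈ [B.1, B.2.1, B.2.2], N p q
  nL : ∀ A ∈ Ch.H, ∀ A' ∈ Ch.H, s A.2.1 A'.2.1 + s A.2.2 A'.2.1 = 1 →
    ∀ q ∈ [A'.2.1, A'.2.2], N A.2.2 q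
  ref : ∀ B ∈ Ch.H, LineRef (Dlist Ch.H s B.1) s neg

/-- **Tight plane formula**: on six colours `F = N(024) + N(135)`. -/
theorem Fval_tight (Ch : PlaneChain P neg) (hs : SignData neg s) (hnn : ∀ p, neg (neg p) = p)
    {N : P → P → Prop} (G : PlaneGeo Ch s N) (μ : P → Fin 6) (he : ∀ p, μ (neg p) = μ p)
    (hadm : ∀ p q, N p q → μ p ≠ μ q) :
    Fval Ch.H s μ = Ncount Ch.H μ {0, 2, 4} + Ncount Ch.H μ {1, 3, 5} := by
  unfold Ncount
  rw [← sumL_add]
  unfold Fval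
  rw [sumL_comm]
  refine sumL_congr (fun B hB => ?_)
  rw [← cAlt_eval]
  -- the polar chain of `B.1`
  let LC := polarChain Ch hs B.1
  have hD : ∀ φ : P × P → Z2, sumL LC.D φ =
      sumL Ch.H (fun A => (s A.1 B.1 + s A.2.1 B.1) * φ (A.2.1, A.2.2)) := by
    intro φ
    exact sumL_Dlist Ch.H s B.1 φ
  have hsum : (sumL Ch.H fun A => kap s A B * Alt (μ A.2.1) (μ A.2.2) (μ B.1) (μ B.2.1) (μ B.2.2)) =
      sumL LC.D (fun f => Alt (μ f.1) (μ f.2) (μ B.1) (μ B.2.1) (μ B.2.2)) := by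
    rw [hD]
    rfl
  rw [hsum]
  have hexp : ∀ f ∈ LC.D, Alt (μ f.1) (μ f.2) (μ B.1) (μ B.2.1) (μ B.2.2) =
      ∑ x0 : Fin 6, ∑ x1 : Fin 6, if x0 < x1 then
        Alt x0 x1 (μ B.1) (μ B.2.1) (μ B.2.2) * edgeInd x0 x1 (μ f.1) (μ f.2) else 0 :=
    fun f _ => alt_expand _ _ _ _ _
  rw [sumL_congr hexp]
  -- exchange the sums
  have hswap : ∀ g : Fin 6 → Fin 6 → P × P → Z2,
      sumL LC.D (fun f => ∑ x0 : Fin 6, ∑ x1 : Fin 6, g x0 x1 f) =
        ∑ x0 : Fin 6, ∑ x1 : Fin 6, sumL LC.D (fun f => g x0 x1 f) := by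
    intro g
    generalize LC.D = L
    induction L with
    | nil => simp
    | cons a L ih =>
      simp only [sumL_cons]
      rw [ih, ← Finset.sum_add_distrib]
      refine Finset.sum_congr rfl (fun x0 _ => ?_)
      rw [← Finset.sum_add_distrib]
  rw [hswap]
  unfold cAlt
  refine Finset.sum_congr rfl (fun x0 _ => Finset.sum_congr rfl (fun x1 _ => ?_))
  by_cases hlt : x0 < x1
  · simp only [hlt, if_true]
    rw [← mul_sumL]
    by_cases hP : AltP x0 x1 (μ B.1) (μ B.2.1) (μ B.2.2)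
    · have hA : Alt x0 x1 (μ B.1) (μ B.2.1) (μ B.2.2) = 1 := if_pos hP
      rw [hA, one_mul]
      obtain ⟨y, hcard, h1, h2, h3⟩ := third_of_alt _ _ _ _ _ hP
      have hvv : ∀ f ∈ LC.D, ∀ g ∈ LC.D, kap' s f g = 1 → ∀ q ∈ [g.1, g.2],
          f.2 ≠ q ∧ f.2 ≠ neg q := by
        intro f hf g hg hk q hq
        obtain ⟨A, hA, -, rfl⟩ := mem_Dlist hf
        obtain ⟨A', hA', -, rfl⟩ := mem_Dlist hg
        exact G.vv _ _ (G.nL A hA A' hA' hk q hq)
      have hadm' : ∀ f ∈ LC.D, ∀ g ∈ LC.D, kap' s f g = 1 → ∀ q ∈ [g.1, g.2],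
          μ f.2 ≠ μ q := by
        intro f hf g hg hk q hq
        obtain ⟨A, hA, -, rfl⟩ := mem_Dlist hf
        obtain ⟨A', hA', -, rfl⟩ := mem_Dlist hg
        exact hadm _ _ (G.nL A hA A' hA' hk q hq)
      refine line_coef LC hs hnn hvv (G.ref B hB) μ he x0 y x1 h1 h2 h3 ?_ hadm'
      intro f hf
      obtain ⟨A, hA, hk, rfl⟩ := mem_Dlist hf
      have hne : ∀ p ∈ [A.2.1, A.2.2], μ p ≠ μ B.1 ∧ μ p ≠ μ B.2.1 ∧ μ p ≠ μ B.2.2 := by
        intro p hp
        exact ⟨hadm _ _ (G.nA A hA B hB hk p hp _ (by simp)),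
          hadm _ _ (G.nA A hA B hB hk p hp _ (by simp)),
          hadm _ _ (G.nA A hA B hB hk p hp _ (by simp))⟩
      have hcov := six_cover x0 y x1 (μ B.1) (μ B.2.1) (μ B.2.2) hcard
      constructor
      · have h' := hne A.2.1 (by simp)
        rcases hcov (μ A.2.1) with h | h | h | h | h | h
        · exact Or.inl h
        · exact Or.inr (Or.inl h)
        · exact Or.inr (Or.inr h)
        · exact absurd h h'.1
        · exact absurd h h'.2.1
        · exact absurd h h'.2.2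
      · have h' := hne A.2.2 (by simp)
        rcases hcov (μ A.2.2) with h | h | h | h | h | h
        · exact Or.inl h
        · exact Or.inr (Or.inl h)
        · exact Or.inr (Or.inr h)
        · exact absurd h h'.1
        · exact absurd h h'.2.1
        · exact absurd h h'.2.2
    · have hA : Alt x0 x1 (μ B.1) (μ B.2.1) (μ B.2.2) = 0 := if_neg hP
      rw [hA, zero_mul]
  · simp only [hlt, if_false]
    exact sumL_zero _

end PlaneLevel

end BorsukT2
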